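import Crest.Agent.R27.Po.Lat

/-! Row 27, block Po (owner helper12): the finite Fourier transform. -/

set_option autoImplicit false

namespace Crest.Agent.R27.Po

open NumberField MeasureTheory Crest.NumberTheoryR.EisensteinField G Ku
open scoped Classical Real nonZeroDivisors

variable {F : Type} [Field F] [NumberField F] [Algebra K3 F] (v : Lv F)

omit [Algebra K3 F] in
theorem fina_tr (c : ℕ) (x : F) : Algebra.trace ℚ F (c * x) = c * Algebra.trace ℚ F x := by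
  rw [← nsmul_eq_mul, map_nsmul, nsmul_eq_mul]

theorem fina_dvd {Q a b : v.R} (h : Ideal.Quotient.mk (Ideal.span {Q}) a = Ideal.Quotient.mk _ b) :
    Q ∣ a - b := Ideal.mem_span_singleton.1 (Ideal.Quotient.eq.1 h)

/-- Fin-a.  `r = x - lp x ∈ R`; `M^k Tr r ∈ ℤ` and `t t' Tr r ∈ ℤ` with `t t'` coprime to `M`, so `Tr r ∈ ℤ` -/
theorem psi_eq_eT {x : F} {t : ℕ} (ht : t.Coprime v.M) (h : ∃ n : ℤ, Algebra.trace ℚ F (t * x) = n) :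
    v.psi x = eT x := by
  obtain ⟨n, hn⟩ := h
  obtain ⟨⟨t', b, ht', hb⟩, k, a, ha⟩ := v.lp_spec x
  obtain ⟨n₁, h₁⟩ := eT_eq_one.1 (eT_coe a)
  obtain ⟨n₂, h₂⟩ := eT_eq_one.1 (eT_coe b)
  rw [← ha, ← Nat.cast_pow, fina_tr] at h₁
  rw [← hb, fina_tr] at h₂
  rw [fina_tr] at hn
  obtain ⟨u, w, huw⟩ := Nat.isCoprime_iff_coprime.2 ((ht.mul_left ht').pow_right k)
  have h₃ : eT (x - v.lp x) = 1 := by
    refine eT_eq_one.2 ⟨u * (t' * n - t * n₂) + w * n₁, ?_⟩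
    have h₄ : (u : ℚ) * (t * t') + w * (v.M ^ k : ℕ) = 1 := by exact_mod_cast huw
    push_cast at h₁ h₄ ⊢
    rw [map_sub] at h₁ ⊢
    rw [← hn, ← h₁, ← h₂]
    linear_combination (-(Algebra.trace ℚ F x - Algebra.trace ℚ F (v.lp x))) * h₄
  have h₅ := eT_add (x - v.lp x) (v.lp x)
  rw [sub_add_cancel, h₃, one_mul] at h₅
  exact h₅.symm

/-- Fin-a -/
theorem per_bdd {Q : v.R} (hQ : Q ≠ 0) {Ψ : v.R → ℂ} (hΨ : Ab.Per Q Ψ) : ∃ B : ℝ, ∀ a, ‖Ψ a‖ ≤ B := by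
  have := v.finite_quot hQ
  obtain ⟨B, hB⟩ := (Set.finite_range fun z : v.R ⧸ Ideal.span {Q} => ‖Ψ (Quotient.out z)‖).bddAbove
  refine ⟨B, fun a => ?_⟩
  rw [hΨ a _ (fina_dvd v (Ideal.Quotient.mk_out (Ideal.Quotient.mk _ a)).symm)]
  exact hB ⟨_, rfl⟩

/-- Fin-a.  any system of representatives computes `rsum` -/
theorem rsum_eq {Q : v.R} (hQ : Q ≠ 0) {f : v.R → ℂ} (hf : Ab.Per Q f) [Fintype (v.R ⧸ Ideal.span {Q})]
    {a : v.R ⧸ Ideal.span {Q} → v.R} (ha : ∀ z, Ideal.Quotient.mk _ (a z) = z) :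
    Ab.rsum Q f = ∑ z, f (a z) := by
  rw [Ab.rsum, finsum_eq_sum_of_fintype]
  exact Finset.sum_congr rfl fun z _ =>
    hf _ _ (fina_dvd v ((Ideal.Quotient.mk_out z).trans (ha z).symm))

theorem fina_psi {Q a b : v.R} (hQ : Q ≠ 0) (h : Q ∣ a - b) :
    v.psi ((a : F) / (Q : F)) = v.psi ((b : F) / (Q : F)) := by
  obtain ⟨c, hc⟩ := h
  have hQ' : (Q : F) ≠ 0 := fun h => hQ (Subtype.ext h)
  have h1 : (a : F) / Q = (b : F) / Q + c := by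
    have : (a : F) - b = Q * c := by exact_mod_cast congrArg Subtype.val hc
    field_simp
    linear_combination this
  rw [h1, v.psi_add, v.psi_R c.2, mul_one]

theorem fina_unit {Q u : v.R} (hQ : Q ≠ 0) (hu : IsUnit u) {g : v.R → ℂ} (hg : Ab.Per Q g) :
    Ab.rsum Q (fun y => g (u * y)) = Ab.rsum Q g := by
  have := v.finite_quot hQ
  have := Fintype.ofFinite (v.R ⧸ Ideal.span {Q})
  have hu' := hu.map (Ideal.Quotient.mk (Ideal.span {Q}))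
  rw [Ab.rsum, Ab.rsum, finsum_eq_sum_of_fintype, finsum_eq_sum_of_fintype,
    ← Equiv.sum_comp hu'.unit.mulLeft fun z => g (Quotient.out z)]
  refine Finset.sum_congr rfl fun z _ => hg _ _ (fina_dvd v ?_)
  rw [map_mul, Ideal.Quotient.mk_out, Ideal.Quotient.mk_out]
  rfl

/-- Fin-a.  (`psi_add`, `psi_R`; `y ↦ u y` permutes the residues) -/
theorem FT_per {Q : v.R} (hQ : Q ≠ 0) {Ψ : v.R → ℂ} (hΨ : Ab.Per Q Ψ) (hU : Ab.UInv Ψ) :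
    Ab.Per Q (FT v Q Ψ) ∧ Ab.UInv (FT v Q Ψ) := by
  constructor
  · intro a b hab
    unfold FT
    congr 1
    funext y
    rw [fina_psi v hQ (b := b * y) (by rw [← sub_mul]; exact hab.mul_right y)]
  · intro u h hu
    have hg : Ab.Per Q fun y => Ψ y * v.psi (((h * y : v.R) : F) / (Q : F)) := fun a b hab => by
      simp only
      rw [hΨ a b hab, fina_psi v hQ (b := h * b) (by rw [← mul_sub]; exact hab.mul_left h)]
    unfold FT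
    rw [← fina_unit v hQ hu hg]
    congr 1
    funext y
    rw [hU u y hu, mul_comm u h, mul_assoc]

/-- Fin-a.  `𝔟 + idl Q = ⊤` (`cp_idl`), `exists_lift`; `𝔟 ⊓ idl Q = 𝔟 * idl Q` -/
theorem exists_reps {𝔟 : Ideal (𝓞 F)} (h𝔟 : Sm v 𝔟) {Q : v.R} (hQ : Q ≠ 0) :
    ∃ (a : v.R ⧸ Ideal.span {Q} → 𝓞 F) (E : (v.R ⧸ Ideal.span {Q}) × (𝔟 * v.idl Q : Ideal (𝓞 F)) ≃ 𝔟),
      (∀ z, a z ∈ 𝔟 ∧ Ideal.Quotient.mk _ (v.up (a z)) = z) ∧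
      ∀ p, ((E p : 𝔟) : 𝓞 F) = (p.2 : 𝓞 F) + a p.1 := by
  obtain ⟨m, hm⟩ := h𝔟
  obtain ⟨w, hw⟩ := cp_iff.1 ((v.cp_idl hQ).pow m)
  have h0 : ∀ x ∈ v.idl Q, Ideal.Quotient.mk (Ideal.span {Q}) (v.up x) = 0 := fun x hx =>
    Ideal.Quotient.eq_zero_iff_mem.2 hx
  have hex : ∀ z : v.R ⧸ Ideal.span {Q}, ∃ a : 𝓞 F, a ∈ 𝔟 ∧ Ideal.Quotient.mk _ (v.up a) = z := by
    intro z
    obtain ⟨a, ha⟩ := v.exists_lift hQ (Quotient.out z)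
    refine ⟨(v.M : 𝓞 F) ^ m * w * a, 𝔟.mul_mem_right _ (𝔟.mul_mem_right _ hm), ?_⟩
    have h1 := h0 _ ((v.idl Q).mul_mem_right a hw)
    rw [sub_mul, one_mul, Lv.up, map_sub, map_sub, sub_eq_zero] at h1
    rw [h1, Ideal.Quotient.eq.2 (Ideal.mem_span_singleton.2 ha), Ideal.Quotient.mk_out]
  choose a ha ha' using hex
  have hz : ∀ p : (v.R ⧸ Ideal.span {Q}) × (𝔟 * v.idl Q : Ideal (𝓞 F)),
      Ideal.Quotient.mk (Ideal.span {Q}) (v.up ((p.2 : 𝓞 F) + a p.1)) = p.1 := fun p => by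
    rw [Lv.up, map_add, map_add, h0 _ (Ideal.mul_le_inf p.2.2).2, zero_add, ha']
  refine ⟨a, Equiv.ofBijective
    (fun p => ⟨(p.2 : 𝓞 F) + a p.1, 𝔟.add_mem (Ideal.mul_le_inf p.2.2).1 (ha _)⟩) ⟨?_, ?_⟩,
    fun z => ⟨ha z, ha' z⟩, fun p => rfl⟩
  · intro p p' h
    have h1 : (p.2 : 𝓞 F) + a p.1 = p'.2 + a p'.1 := congrArg Subtype.val h
    have h2 : p.1 = p'.1 := by rw [← hz p, h1, hz p']
    rw [h2] at h1
    exact Prod.ext h2 (Subtype.ext (add_right_cancel h1))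
  · intro α
    set z := Ideal.Quotient.mk (Ideal.span {Q}) (v.up α) with hzd
    have h1 : (α : 𝓞 F) - a z ∈ 𝔟 := 𝔟.sub_mem α.2 (ha z)
    have h2 : (α : 𝓞 F) - a z ∈ v.idl Q := by
      have : Ideal.Quotient.mk (Ideal.span {Q}) (v.up ((α : 𝓞 F) - a z)) = 0 := by
        rw [Lv.up, map_sub, map_sub, ha', sub_self]
      exact Ideal.mem_comap.2 (Ideal.Quotient.eq_zero_iff_mem.1 this)
    have h3 : (α : 𝓞 F) - a z ∈ 𝔟 * v.idl Q := by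
      have := (𝔟 * v.idl Q).sub_mem (Ideal.mul_mem_mul (𝔟.mul_mem_right w hm) h2)
        (Ideal.mul_mem_mul h1 hw)
      convert this using 1
      ring
    exact ⟨(z, ⟨_, h3⟩), Subtype.ext (sub_add_cancel _ _)⟩

theorem finb_t {Q : v.R} (hQ : Q ≠ 0) : ∃ t : ℕ, t.Coprime v.M ∧ (t : 𝓞 F) ∈ v.idl Q := by
  obtain ⟨w, hw⟩ := cp_iff.1 (v.cp_idl hQ)
  exact ⟨_, v.loca_cop (a := v.M * w - 1) ⟨-1, w, by ring⟩,
    (Ideal.span_singleton_le_iff_mem _).2 hw (Ideal.absNorm_mem _)⟩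

theorem finb_FT {𝔟 𝔟' : Ideal (𝓞 F)} {γ : 𝓞 F} {Q : v.R} (hQ : Q ≠ 0)
    (hd : IsDual (𝔟 * v.idl Q) 𝔟' γ) (hγ : Associated (v.up γ) Q) {Ψ : v.R → ℂ} (hΨ : Ab.Per Q Ψ)
    (hU : Ab.UInv Ψ) [Fintype (v.R ⧸ Ideal.span {Q})] {a : v.R ⧸ Ideal.span {Q} → 𝓞 F}
    (ha : ∀ z, a z ∈ 𝔟 ∧ Ideal.Quotient.mk _ (v.up (a z)) = z) {β : 𝓞 F} (hβ : β ∈ 𝔟') :
    FT v Q Ψ (v.up β) = ∑ z, Ψ (v.up (a z)) * eT ((β : F) / γ * a z) := by
  obtain ⟨t, ht, htQ⟩ := finb_t v hQ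
  obtain ⟨u, hu⟩ := hγ
  have hQ' : (Q : F) ≠ 0 := by simpa using hQ
  have hγ' : (γ : F) ≠ 0 := by exact_mod_cast hd.1
  have hp : Ab.Per Q fun y => Ψ y * v.psi (((u * v.up β * y : v.R) : F) / (Q : F)) := by
    rintro x x' ⟨c, hc⟩
    have e : ((u * v.up β * x : v.R) : F) / (Q : F) =
        ((u * v.up β * x' : v.R) : F) / (Q : F) + ((u * v.up β * c : v.R) : F) := by
      rw [eq_add_of_sub_eq' hc]
      push_cast
      field_simp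
    simp only [hΨ x x' ⟨c, hc⟩, e, v.psi_add, v.psi_R (u * v.up β * c).2, mul_one]
  rw [← (FT_per v hQ hΨ hU).2 u _ u.isUnit, FT, rsum_eq v hQ hp fun z => (ha z).2]
  refine Finset.sum_congr rfl fun z _ => ?_
  have e : ((u * v.up β * v.up (a z) : v.R) : F) / (Q : F) = (β : F) / γ * a z := by
    have h1 : (Q : F) = γ * ((u : v.R) : F) := by rw [← hu, Subalgebra.coe_mul, Lv.coe_up]
    have h2 : ((u : v.R) : F) ≠ 0 := right_ne_zero_of_mul (h1 ▸ hQ')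
    rw [Subalgebra.coe_mul, Subalgebra.coe_mul, Lv.coe_up, Lv.coe_up, h1]
    field_simp
  obtain ⟨n, hn⟩ := (hd.2 _).2 ⟨β, hβ, rfl⟩ _ (Ideal.mul_mem_mul (ha z).1 htQ)
  rw [e, psi_eq_eT v ht ⟨n, by rw [← hn]; congr 1; push_cast; ring⟩]

/-- Fin-b.  Split by `exists_reps` (`summable_Gs`, `per_bdd`, `Summable.tsum_prod`, `tsum_fintype`), `lat_pois` for
`𝔠 = 𝔟 * idl Q` and each `a z`, exchange the finite sum and the series.  For `β ∈ 𝔟'`: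
`eT (β / γ * a z) = psi (β / γ * a z)` (`psi_eq_eT` with `t = absNorm (idl Q) ∈ idl Q`, coprime to `M`: `loca_cop`-like,
`Ideal.absNorm_mem`; `IsDual`), and `β / γ = (u β) / Q` with the unit `u = Q / γ` of `R`; `rsum_eq`, `FT_per`. -/
theorem fin_pois {𝔟 𝔟' : Ideal (𝓞 F)} {γ : 𝓞 F} (h𝔟 : Sm v 𝔟) (h𝔟' : 𝔟' ≠ ⊥) {Q : v.R} (hQ : Q ≠ 0)
    (hd : IsDual (𝔟 * v.idl Q) 𝔟' γ) (hγ : Associated (v.up γ) Q) {Ψ : v.R → ℂ} (hΨ : Ab.Per Q Ψ)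
    (hU : Ab.UInv Ψ) {y : (F →+* ℂ) → ℝ} (hy : Tor y) :
    ∑' α : 𝔟, Ψ (v.up α) * ((Gs y ((α : 𝓞 F) : F) : ℝ) : ℂ) =
      ((((∏ φ, y φ) * (Ideal.absNorm 𝔟 * v.N Q) * rD F)⁻¹ : ℝ) : ℂ) * ∑' β : 𝔟',
        FT v Q Ψ (v.up β) * ((Gs (fun φ => (y φ)⁻¹) (((β : 𝓞 F) : F) * (γ : F)⁻¹) : ℝ) : ℂ) := by
  have := v.finite_quot hQ
  let _ := Fintype.ofFinite (v.R ⧸ Ideal.span {Q})
  obtain ⟨a, E, ha, hE⟩ := exists_reps v h𝔟 hQ
  obtain ⟨B, hB⟩ := per_bdd v hQ hΨ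
  have hb : 𝔟 ≠ ⊥ := by
    obtain ⟨m, hm⟩ := h𝔟
    rintro rfl
    exact pow_ne_zero m v.M_ne' hm
  have hc : 𝔟 * v.idl Q ≠ ⊥ := mul_ne_zero hb (v.idl_ne_bot hQ)
  have hG : ∀ (y : (F →+* ℂ) → ℝ) (x : F), ‖((Gs y x : ℝ) : ℂ)‖ = Gs y x := fun y x =>
    Complex.norm_of_nonneg (Real.exp_pos _).le
  have s1 : Summable fun α : 𝔟 => Ψ (v.up α) * ((Gs y ((α : 𝓞 F) : F) : ℝ) : ℂ) := by
    refine ((summable_Gs hb hy one_ne_zero).mul_left B).of_norm_bounded fun α => ?_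
    rw [norm_mul, hG, mul_one]
    exact mul_le_mul_of_nonneg_right (hB _) (Real.exp_pos _).le
  have hy' : Tor fun φ => (y φ)⁻¹ := ⟨fun φ => inv_pos.2 (hy.1 φ), fun φ => by simp only [hy.2 φ]⟩
  have hγ0 : (γ : F)⁻¹ ≠ 0 := inv_ne_zero (by exact_mod_cast hd.1)
  have s2 : ∀ z, Summable fun β : 𝔟' => Ψ (v.up (a z)) * (eT (((β : 𝓞 F) : F) / γ * a z) *
      ((Gs (fun φ => (y φ)⁻¹) (((β : 𝓞 F) : F) * (γ : F)⁻¹) : ℝ) : ℂ)) := fun z => by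
    refine Summable.mul_left _ ((summable_Gs h𝔟' hy' hγ0).of_norm_bounded fun β => ?_)
    rw [norm_mul, hG, norm_eT, one_mul]
  have e1 : ∀ z (α : (𝔟 * v.idl Q : Ideal (𝓞 F))),
      Ψ (v.up (E (z, α))) * ((Gs y ((E (z, α) : 𝓞 F) : F) : ℝ) : ℂ) =
        Ψ (v.up (a z)) * ((Gs y (((α : 𝓞 F) : F) + a z) : ℝ) : ℂ) := fun z α => by
    rw [hE, hΨ (v.up (α + a z)) (v.up (a z)) (by
      rw [Lv.up, map_add, add_sub_cancel_right]; exact v.mem_idl.1 (Ideal.mul_le_right α.2))]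
    simp only [map_add]
  have s3 : Summable fun p => Ψ (v.up (E p)) * ((Gs y ((E p : 𝓞 F) : F) : ℝ) : ℂ) :=
    E.summable_iff.2 s1
  rw [← E.tsum_eq, s3.tsum_prod, tsum_fintype]
  simp only [e1, tsum_mul_left, lat_pois hc hd hy]
  simp only [mul_left_comm (Ψ _), ← Finset.mul_sum]
  congr 1
  · rw [map_mul, Nat.cast_mul, Lv.N]
  · simp only [← tsum_mul_left]
    rw [← Summable.tsum_finsetSum fun z _ => s2 z]
    refine tsum_congr fun β => ?_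
    rw [finb_FT v hQ hd hγ hΨ hU ha β.2, Finset.sum_mul]
    simp only [mul_assoc]

end Crest.Agent.R27.Po
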