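import Crest.Agent.R27.Po.Lat

/-! Row 27, block Po (owner helper12): unfolding. -/

set_option autoImplicit false

namespace Crest.Agent.R27.Po

open NumberField MeasureTheory Crest.NumberTheoryR.EisensteinField G Ku
open scoped Classical Real nonZeroDivisors

/-- Unf-a.  Shift: `IsAddFundamentalDomain.setIntegral_eq` for the lattice `span ℤ (range (Pi.basisFun ℝ κ))`
(`ZSpan.isAddFundamentalDomain`, `ZSpan.fundamentalDomain_pi_basisFun`, `Ico` box `=ᵐ Icc`, see `Ku.cube_sum`) and its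
translate.  Reflection: `-Icc 0 1 = Icc 0 1 - 1`. -/
theorem per_cube {κ : Type} [Fintype κ] {Θ : (κ → ℝ) → ℂ} (hc : Continuous Θ)
    (hp : ∀ (c : κ → ℝ) (k : κ → ℤ), Θ (c + fun j => (k j : ℝ)) = Θ c) (c₀ : κ → ℝ) :
    ∫ c in Set.Icc (0 : κ → ℝ) 1, Θ (c + c₀) = ∫ c in Set.Icc (0 : κ → ℝ) 1, Θ c ∧
    ∫ c in Set.Icc (0 : κ → ℝ) 1, Θ (-c) = ∫ c in Set.Icc (0 : κ → ℝ) 1, Θ c := by
  constructor
  · have hF := ZSpan.isAddFundamentalDomain' (Pi.basisFun ℝ κ) volume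
    have hae : ZSpan.fundamentalDomain (Pi.basisFun ℝ κ) =ᵐ[volume] Set.Icc 0 1 := by
      rw [ZSpan.fundamentalDomain_pi_basisFun]
      exact Measure.univ_pi_Ico_ae_eq_Icc
    have : Countable (Submodule.span ℤ (Set.range (Pi.basisFun ℝ κ))).toAddSubgroup :=
      inferInstanceAs (Countable (Submodule.span ℤ (Set.range (Pi.basisFun ℝ κ))))
    have h1 := (hF.vadd_of_comm c₀).setIntegral_eq hF (f := Θ) fun g x => by
      choose k hk using ((Pi.basisFun ℝ κ).mem_span_iff_repr_mem ℤ g.1).1 g.2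
      rw [← hp x k, add_comm]
      congr 1
      funext j
      have e : g.1 j = k j := by simpa using (hk j).symm
      exact congrArg (· + x j) e
    rw [← setIntegral_congr_set hae, ← setIntegral_congr_set hae, ← h1]
    simp only [add_comm _ c₀]
    exact ((measurePreserving_add_left volume c₀).setIntegral_image_emb (measurableEmbedding_addLeft c₀) Θ _).symm
  · have h1 := (Measure.measurePreserving_sub_left volume (1 : κ → ℝ)).setIntegral_preimage_emb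
      (MeasurableEquiv.subLeft (1 : κ → ℝ)).measurableEmbedding Θ (Set.Icc 0 1)
    rw [Set.preimage_const_sub_Icc, sub_self, sub_zero] at h1
    rw [← h1]
    congr 1
    funext c
    rw [← hp (-c) 1, add_comm, sub_eq_add_neg]
    congr 2
    funext j
    simp

variable {K : Type} [Field K] [NumberField K]

theorem tor_yv {t : ℝ} (ht : 0 < t) (c : Fin (Units.rank K) → ℝ) : Tor (yv (ellK K) t c) :=
  ⟨yv_pos _ ht c, yv_conj t c⟩

/-- Unf-a -/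
theorem yv_inv {t : ℝ} (ht : 0 < t) (c : Fin (Units.rank K) → ℝ) :
    (fun φ => (yv (ellK K) t c φ)⁻¹) = yv (ellK K) t⁻¹ (-c) := by
  funext φ
  simp only [yv, mul_inv, Real.inv_rpow ht.le, ← Real.exp_neg, Pi.neg_apply, neg_mul, Finset.sum_neg_distrib]

/-- the theta series of the ideal `𝔟` -/
noncomputable def thI (𝔟 : Ideal (𝓞 K)) (f : 𝓞 K → ℂ) (t : ℝ) (c : Fin (Units.rank K) → ℝ) : ℂ :=
  ∑' α : 𝔟, f α * ((Gs (yv (ellK K) t c) ((α : 𝓞 K) : K) : ℝ) : ℂ)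

/-- Unf-a.  `thI` is `th` of `exists_dat` (reindex by `b.equivFun`; `IsDat.lat_eq`, `sum_hc_sq`, `yv_conj`) -/
theorem thI_eq {𝔟 : Ideal (𝓞 K)} (h𝔟 : 𝔟 ≠ ⊥) {b : Module.Basis (K →+* ℂ) ℤ 𝔟}
    {D : Dat (K →+* ℂ) (Fin (Units.rank K))} {V : ℝ} (h : IsDat K 𝔟 b D V) (f : 𝓞 K → ℂ) {t : ℝ} (ht : 0 < t)
    (c : Fin (Units.rank K) → ℝ) :
    thI 𝔟 f t c = th D ∅ (fun m => f ((∑ i, m i • b i : 𝔟) : 𝓞 K)) (t * V) c := by
  have hV : 0 < V := (h.lat_eq h𝔟 ht 0 0 (Classical.arbitrary _)).1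
  rw [thI, th, ← b.equivFun.symm.toEquiv.tsum_eq]
  refine tsum_congr fun m => ?_
  simp only [fun φ => (h.lat_eq h𝔟 (mul_pos ht hV) c m φ).2, mul_div_cancel_right₀ t hV.ne']
  rw [fS, (sum_hc_sq (yv_conj t c) _).1, Finset.prod_empty, one_mul, ← b.equivFun_symm_apply]
  rfl

/-- Unf-a.  `thI_eq`, `th_cont` (divide `f` by `B`); periodicity: `yv_unit` with `ζ = 1`, reindex `α ↦ α ε^k` -/
theorem thI_cont {𝔟 : Ideal (𝓞 K)} (h𝔟 : 𝔟 ≠ ⊥) {f : 𝓞 K → ℂ} {B : ℝ} (hB : ∀ α, ‖f α‖ ≤ B)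
    (hf : ∀ (u : (𝓞 K)ˣ) (α : 𝓞 K), f (u * α) = f α) {t : ℝ} (ht : 0 < t) : Continuous (thI 𝔟 f t) ∧
      ∀ (c : Fin (Units.rank K) → ℝ) (k : Fin (Units.rank K) → ℤ),
        thI 𝔟 f t (c + fun j => (k j : ℝ)) = thI 𝔟 f t c := by
  refine ⟨?_, fun c k => ?_⟩
  · obtain ⟨b, D, V, h⟩ := exists_dat h𝔟
    have hV : 0 < V := (h.lat_eq h𝔟 ht 0 0 (Classical.arbitrary _)).1
    have hB1 : 0 < B + 1 := by linarith [norm_nonneg (f 0), hB 0]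
    have hB' : ((B + 1 : ℝ) : ℂ) ≠ 0 := Complex.ofReal_ne_zero.2 hB1.ne'
    have e : thI 𝔟 f t = fun c => ((B + 1 : ℝ) : ℂ) *
        th D ∅ (fun m => f ((∑ i, m i • b i : 𝔟) : 𝓞 K) / ((B + 1 : ℝ) : ℂ)) (t * V) c := by
      funext c
      rw [← thI_eq h𝔟 h (fun α => f α / ((B + 1 : ℝ) : ℂ)) ht, thI, thI, ← tsum_mul_left]
      refine tsum_congr fun α => ?_
      rw [← mul_assoc, mul_div_cancel₀ _ hB']
    rw [e]
    refine continuous_const.mul (avg_cont D ∅ (fun m => ?_) (mul_pos ht hV))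
    rw [norm_div, Complex.norm_real, Real.norm_of_nonneg hB1.le, div_le_one hB1]
    linarith [hB ((∑ i, m i • b i : 𝔟) : 𝓞 K)]
  · set u : (𝓞 K)ˣ := ((1 : Units.torsion K) : (𝓞 K)ˣ) * ∏ j, Units.fundSystem K j ^ k j with hu
    rw [thI, thI, ← (MulAction.toPerm u : 𝔟 ≃ 𝔟).tsum_eq
      fun α : 𝔟 => f α * ((Gs (yv (ellK K) t c) ((α : 𝓞 K) : K) : ℝ) : ℂ)]
    refine tsum_congr fun α => ?_
    have e : (((MulAction.toPerm u : 𝔟 ≃ 𝔟) α : 𝔟) : 𝓞 K) = u * α := rfl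
    rw [e, hf]
    simp only [Gs, ← yv_unit 1 k t c, ← hu, RingOfIntegers.coe_eq_algebraMap, map_mul, norm_mul, mul_assoc]

/-- Unf-b.  `thI_eq`, `Ku.unfold` with `e = false` (divide `f`, `η` by `B`) -/
theorem thI_unfold {𝔟 : Ideal (𝓞 K)} (h𝔟 : 𝔟 ≠ ⊥) {f : 𝓞 K → ℂ} {B : ℝ} (hB : ∀ α, ‖f α‖ ≤ B)
    {η : Ideal (𝓞 K) → ℂ} (hη : ∀ α ∈ 𝔟, α ≠ 0 → f α = η (Ideal.span {α})) {t : ℝ} (ht : 0 < t) :
    HasSum (fun P : PP K 𝔟 => (Units.torsionOrder K : ℂ) * η P.1 * ((phi K (t * Ideal.absNorm P.1) : ℝ) : ℂ))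
      ((∫ c in cube K, thI 𝔟 f t c) - f 0) := by
  obtain ⟨b, D, V, h⟩ := exists_dat h𝔟
  have hV : 0 < V := h.hV ▸ embe_V h𝔟
  have hB0 : 0 < B + 1 := by linarith [(norm_nonneg _).trans (hB 0)]
  have hβ : ((B + 1 : ℝ) : ℂ) ≠ 0 := Complex.ofReal_ne_zero.2 hB0.ne'
  have h1 := Ku.unfold h𝔟 h false
    (ψ := fun m => f ((∑ i, m i • b i : 𝔟) : 𝓞 K) / ((B + 1 : ℝ) : ℂ))
    (η := fun I => η I / ((B + 1 : ℝ) : ℂ)) (fun m => ?_) (fun m hm => ?_) (mul_pos ht hV)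
  · have hS : Sg K false = ∅ := by simp [Sg]
    have h2 : ∀ c, thI 𝔟 f t c = ((B + 1 : ℝ) : ℂ) * th D ∅
        (fun m => f ((∑ i, m i • b i : 𝔟) : 𝓞 K) / ((B + 1 : ℝ) : ℂ)) (t * V) c := fun c => by
      rw [thI_eq h𝔟 h f ht c, th, th, ← tsum_mul_left]
      exact tsum_congr fun m => by field_simp
    rw [hS, mul_div_cancel_right₀ _ hV.ne'] at h1
    simp only [h2]
    rw [integral_const_mul]
    convert h1.mul_left ((B + 1 : ℝ) : ℂ) using 1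
    · rfl
    · funext P
      rw [phi]
      field_simp
    · rw [thA, mul_sub]
      congr 1
      simp only [fS, Finset.prod_empty, Pi.zero_apply, zero_smul, Finset.sum_const_zero,
        ZeroMemClass.coe_zero]
      generalize ((B + 1 : ℝ) : ℂ) = β at hβ
      simp
      field_simp
  · rw [norm_div, Complex.norm_real, Real.norm_of_nonneg hB0.le, div_le_one hB0]
    linarith [hB ((∑ i, m i • b i : 𝔟) : 𝓞 K)]
  · rw [hη _ (∑ i, m i • b i : 𝔟).2 fun h0 => hm ?_]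
    · simp [sg]
    · have h3 : (∑ i, m i • b i : 𝔟) = 0 := Subtype.ext h0
      exact funext (Fintype.linearIndependent_iff.1 b.linearIndependent m h3)

/-- Unf-b.  `exists_shift` for `x₀` turns the integrand into `thI 𝔟 f (t |N x₀|) (-c + c₀)`; `per_cube`, `thI_cont` -/
theorem thI_refl {𝔟 : Ideal (𝓞 K)} (h𝔟 : 𝔟 ≠ ⊥) {f : 𝓞 K → ℂ} {B : ℝ} (hB : ∀ α, ‖f α‖ ≤ B)
    (hf : ∀ (u : (𝓞 K)ˣ) (α : 𝓞 K), f (u * α) = f α) {t : ℝ} (ht : 0 < t) {x₀ : K} (hx : x₀ ≠ 0) :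
    ∫ c in cube K, ∑' α : 𝔟, f α * ((Gs (yv (ellK K) t (-c)) (((α : 𝓞 K) : K) * x₀) : ℝ) : ℂ) =
      ∫ c in cube K, thI 𝔟 f (t * |((Algebra.norm ℚ x₀ : ℚ) : ℝ)|) c := by
  obtain ⟨c₀, hc₀⟩ := exists_shift hx
  have hN : 0 < |((Algebra.norm ℚ x₀ : ℚ) : ℝ)| :=
    abs_pos.2 (Rat.cast_ne_zero.2 (Algebra.norm_ne_zero_iff.2 hx))
  obtain ⟨h1, h2⟩ := thI_cont h𝔟 hB hf (mul_pos ht hN)
  have h3 : ∀ c, ∑' α : 𝔟, f α * ((Gs (yv (ellK K) t (-c)) (((α : 𝓞 K) : K) * x₀) : ℝ) : ℂ) =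
      thI 𝔟 f (t * |((Algebra.norm ℚ x₀ : ℚ) : ℝ)|) (-c + c₀) := fun c => by
    refine tsum_congr fun α => ?_
    simp only [Gs, ← hc₀ t ht, map_mul, norm_mul]
    congr 5
    exact Finset.sum_congr rfl fun φ _ => by ring
  simp only [h3]
  rw [← (per_cube h1 h2 c₀).1]
  exact (per_cube (Θ := fun c => thI 𝔟 f (t * |((Algebra.norm ℚ x₀ : ℚ) : ℝ)|) (c + c₀))
    (h1.comp (continuous_id.add continuous_const))
    (fun c k => by rw [add_right_comm, h2]) 0).2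

end Crest.Agent.R27.Po
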