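import Crest.Agent.R27.Po.Idl
import Crest.Agent.R27.Po.Fin
import Crest.Agent.R27.Po.Unf

/-! Row 27, block Po (owner helper12): assembly. -/

set_option autoImplicit false

namespace Crest.Agent.R27.Po

open NumberField MeasureTheory Crest.NumberTheoryR.EisensteinField G Ku
open scoped Classical Real nonZeroDivisors

variable {F : Type} [Field F] [NumberField F] [Algebra K3 F] (v : Lv F)

theorem uinv_up {Ψ : v.R → ℂ} (hU : Ab.UInv Ψ) (u : (𝓞 F)ˣ) (α : 𝓞 F) :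
    Ψ (v.up (u * α)) = Ψ (v.up α) := by
  rw [Lv.up, map_mul]
  exact hU _ _ (u.isUnit.map _)

theorem uinv_assoc {Ψ : v.R → ℂ} (hU : Ab.UInv Ψ) {a b : v.R} (h : Associated a b) : Ψ a = Ψ b := by
  obtain ⟨u, rfl⟩ := h
  rw [mul_comm]
  exact (hU _ _ u.isUnit).symm

/-- the theta integral of a representative `𝔟` of the inverse class -/
theorem class_unfold {C : ClassGroup (𝓞 F)} {𝔟 : (Ideal (𝓞 F))⁰} (h𝔟 : Sm v 𝔟)
    (hC : C * ClassGroup.mk0 𝔟 = 1) {Ψ : v.R → ℂ} {B : ℝ} (hB : ∀ a, ‖Ψ a‖ ≤ B) (hU : Ab.UInv Ψ)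
    {t : ℝ} (ht : 0 < t) :
    ∫ c in cube F, thI (𝔟 : Ideal (𝓞 F)) (fun α => Ψ (v.up α))
        (t / (Ideal.absNorm (𝔟 : Ideal (𝓞 F)) * rD F)) c =
      Ψ 0 + (Units.torsionOrder F : ℂ) * BC v C Ψ t := by
  have hb := h𝔟.ne_bot
  have hN : (0 : ℝ) < Ideal.absNorm (𝔟 : Ideal (𝓞 F)) := by
    exact_mod_cast Nat.pos_of_ne_zero (Ideal.absNorm_eq_zero_iff.not.2 hb)
  have hD := rD_pos F
  obtain ⟨E, hE⟩ := exists_PP (F := F) hC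
  have h1 := thI_unfold hb (f := fun α => Ψ (v.up α)) (B := B) (fun α => hB _)
    (η := fun I => Ψ (gen v I)) (fun α _ _ => by
      refine (uinv_assoc v hU (gen_assoc v (𝔟 := ⊤) ⟨0, trivial⟩ (α := α) ?_)).symm
      rw [Ideal.mul_top]) (t := t / (Ideal.absNorm (𝔟 : Ideal (𝓞 F)) * rD F)) (by positivity)
  have h2 := (E.hasSum_iff.2 h1).tsum_eq
  rw [show v.up 0 = 0 from map_zero _] at h2
  rw [BC, ← tsum_mul_left, ← sub_eq_iff_eq_add', ← h2]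
  refine tsum_congr fun I => ?_
  simp only [Function.comp, hE]
  obtain ⟨α, hα⟩ := (E I).2.2.1
  rw [hE] at hα
  have e1 : Ψ (gen v ((I.1 : Ideal (𝓞 F)) * 𝔟)) = Ψ (gen v I.1) := by
    refine uinv_assoc v hU ((gen_assoc v (𝔟 := ⊤) ⟨0, trivial⟩ (α := α) ?_).trans
      (gen_assoc v h𝔟 hα).symm)
    rw [Ideal.mul_top]
    exact hα
  rw [e1, mul_assoc, map_mul]
  congr 4
  push_cast
  field_simp

/-- Poisson summation for one class -/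
theorem class_pois {Q : v.R} (hQ : Q ≠ 0) : ∃ c₀ : ClassGroup (𝓞 F), ∀ (C : ClassGroup (𝓞 F)) {Ψ : v.R → ℂ},
    Ab.Per Q Ψ → Ab.UInv Ψ → ∀ {t : ℝ}, 0 < t →
    Ψ 0 + (Units.torsionOrder F : ℂ) * BC v C Ψ t = (((t * v.N Q)⁻¹ : ℝ) : ℂ) *
      (FT v Q Ψ 0 + (Units.torsionOrder F : ℂ) * BC v (C⁻¹ * c₀) (FT v Q Ψ) (t * v.N Q)⁻¹) := by
  have hq := v.idl_ne_bot hQ
  have hd : differentIdeal ℤ (𝓞 F) ≠ ⊥ := differentIdeal_ne_bot
  have hdS : Sm v (differentIdeal ℤ (𝓞 F)) := ⟨1, by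
    rw [pow_one]
    exact mem_different (by simpa using v.dual)⟩
  let 𝔢 : (Ideal (𝓞 F))⁰ := ⟨v.idl Q * differentIdeal ℤ (𝓞 F), mem_nonZeroDivisors_of_ne_zero (mul_ne_zero hq hd)⟩
  refine ⟨ClassGroup.mk0 𝔢, fun C Ψ hΨ hU t ht => ?_⟩
  obtain ⟨𝔟, h𝔟, hC⟩ := exists_sm v C
  obtain ⟨𝔟', h𝔟', hC'⟩ := exists_sm v (C⁻¹ * ClassGroup.mk0 𝔢)
  have hb := h𝔟.ne_bot
  have hb' := h𝔟'.ne_bot
  have hone : ClassGroup.mk0 (𝔟 * 𝔢 * 𝔟') = 1 := by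
    rw [map_mul, map_mul, ← hC', eq_inv_of_mul_eq_one_right hC]
  obtain ⟨γ, hγ⟩ := (ClassGroup.mk0_eq_one_iff (𝔟 * 𝔢 * 𝔟').2).1 hone
  have hγ' : (𝔟 : Ideal (𝓞 F)) * v.idl Q * 𝔟' * differentIdeal ℤ (𝓞 F) = Ideal.span {γ} := by
    rw [show Ideal.span {γ} = ((𝔟 * 𝔢 * 𝔟' : (Ideal (𝓞 F))⁰) : Ideal (𝓞 F)) from hγ.symm]
    simp only [Submonoid.coe_mul, 𝔢]
    ring
  have hγ0 : γ ≠ 0 := fun h0 => by
    rw [h0, Ideal.span_singleton_zero] at hγ'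
    exact mul_ne_zero (mul_ne_zero (mul_ne_zero hb hq) hb') hd hγ'
  obtain ⟨hdual, hNγ⟩ := isDual_of hγ0 hγ'
  have hS : Sm v ((𝔟 : Ideal (𝓞 F)) * 𝔟' * differentIdeal ℤ (𝓞 F)) := by
    obtain ⟨m₁, h₁⟩ := h𝔟
    obtain ⟨m₂, h₂⟩ := h𝔟'
    obtain ⟨m₃, h₃⟩ := hdS
    exact ⟨m₁ + m₂ + m₃, by
      rw [pow_add, pow_add]
      exact Ideal.mul_mem_mul (Ideal.mul_mem_mul h₁ h₂) h₃⟩
  have hass : Associated (v.up γ) Q := by
    refine (gen_assoc v (𝔪 := v.idl Q * ((𝔟 : Ideal (𝓞 F)) * 𝔟' * differentIdeal ℤ (𝓞 F))) (𝔟 := ⊤)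
      ⟨0, trivial⟩ ?_).symm.trans (gen_idl v hS Q)
    rw [Ideal.mul_top, ← hγ']
    ring
  have hN : (0 : ℝ) < Ideal.absNorm (𝔟 : Ideal (𝓞 F)) := by
    exact_mod_cast Nat.pos_of_ne_zero (Ideal.absNorm_eq_zero_iff.not.2 hb)
  have hN' : (0 : ℝ) < Ideal.absNorm (𝔟' : Ideal (𝓞 F)) := by
    exact_mod_cast Nat.pos_of_ne_zero (Ideal.absNorm_eq_zero_iff.not.2 hb')
  have hNQ : (0 : ℝ) < v.N Q := by
    exact_mod_cast Nat.pos_of_ne_zero (Ideal.absNorm_eq_zero_iff.not.2 hq)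
  have hD := rD_pos F
  obtain ⟨B, hB⟩ := per_bdd v hQ hΨ
  obtain ⟨hΨ', hU'⟩ := FT_per v hQ hΨ hU
  obtain ⟨B', hB'⟩ := per_bdd v hQ hΨ'
  rw [← class_unfold v h𝔟 hC hB hU ht, ← class_unfold v h𝔟' hC' hB' hU' (by positivity)]
  set t' := t / (Ideal.absNorm (𝔟 : Ideal (𝓞 F)) * rD F) with ht'
  have ht0 : 0 < t' := by positivity
  have hγF : ((γ : F))⁻¹ ≠ 0 := inv_ne_zero (by exact_mod_cast hγ0)
  have h3 := thI_refl hb' (f := fun α => FT v Q Ψ (v.up α)) (B := B') (fun α => hB' _)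
    (uinv_up v hU') (t := t'⁻¹) (by positivity) hγF
  have e1 : t'⁻¹ * |((Algebra.norm ℚ ((γ : F))⁻¹ : ℚ) : ℝ)| =
      (t * v.N Q)⁻¹ / (Ideal.absNorm (𝔟' : Ideal (𝓞 F)) * rD F) := by
    rw [Algebra.norm_inv, Rat.cast_inv, abs_inv, hNγ, map_mul, ht']
    have : ((Ideal.absNorm (v.idl Q) : ℕ) : ℝ) = v.N Q := rfl
    push_cast
    rw [this]
    field_simp
  rw [← e1, ← h3, ← integral_const_mul]
  refine setIntegral_congr_fun measurableSet_Icc fun c _ => ?_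
  have h4 := fin_pois v h𝔟 hb' hQ hdual hass hΨ hU (tor_yv ht0 c)
  rw [yv_inv ht0, prod_yv Fintype.card_pos sum_ellK ht0] at h4
  refine h4.trans ?_
  congr 3
  rw [ht']
  field_simp

theorem poisson {P : Submonoid v.R} (hP : v.Gen P) {Q : v.R} (hQ : Q ≠ 0) {Ψ : v.R → ℂ} (hΨ : Ab.Per Q Ψ)
    (hU : Ab.UInv Ψ) {K : ℝ} (hK : 0 < K) :
    ((Fintype.card (ClassGroup (𝓞 F)) / Units.torsionOrder F : ℝ) : ℂ) * Ψ 0 +
        ∑' k : P, Ψ k * ((W v (Ab.nm (k : v.R) / K) : ℝ) : ℂ) =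
      ((K / Ab.nm Q : ℝ) : ℂ) * (((Fintype.card (ClassGroup (𝓞 F)) / Units.torsionOrder F : ℝ) : ℂ) * FT v Q Ψ 0 +
        ∑' h : P, FT v Q Ψ h * ((W v (Ab.nm (h : v.R) / (Ab.nm Q / K)) : ℝ) : ℂ)) := by
  obtain ⟨c₀, hc⟩ := class_pois v hQ
  have hNQ : (0 : ℝ) < v.N Q := by
    exact_mod_cast Nat.pos_of_ne_zero (Ideal.absNorm_eq_zero_iff.not.2 (v.idl_ne_bot hQ))
  have hnm : Ab.nm Q = v.N Q := by rw [v.N_eq_card hQ]; rfl
  obtain ⟨B, hB⟩ := per_bdd v hQ hΨ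
  obtain ⟨hΨ', hU'⟩ := FT_per v hQ hΨ hU
  obtain ⟨B', hB'⟩ := per_bdd v hQ hΨ'
  have hw : (Units.torsionOrder F : ℂ) ≠ 0 := by exact_mod_cast (Units.torsionOrder_pos F).ne'
  have h1 := Finset.sum_congr rfl fun C (_ : C ∈ Finset.univ) => hc C hΨ hU (inv_pos.2 hK)
  rw [← Finset.mul_sum, Finset.sum_add_distrib, Finset.sum_add_distrib, ← Finset.mul_sum, ← Finset.mul_sum,
    Fintype.sum_equiv ((Equiv.inv _).trans (Equiv.mulRight c₀))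
      (fun C => BC v (C⁻¹ * c₀) (FT v Q Ψ) (K⁻¹ * v.N Q)⁻¹) (fun C => BC v C (FT v Q Ψ) (K⁻¹ * v.N Q)⁻¹)
      (fun _ => rfl),
    sum_BC v hP hB hU (inv_pos.2 hK), sum_BC v hP hB' hU' (by positivity)] at h1
  simp only [Finset.sum_const, Finset.card_univ, nsmul_eq_mul] at h1
  have e1 : ∀ x : ℝ, x / (Ab.nm Q / K) = x * (K⁻¹ * v.N Q)⁻¹ := fun x => by
    rw [hnm]; field_simp
  have e2 : K / Ab.nm Q = (K⁻¹ * v.N Q)⁻¹ := by
    rw [hnm]; field_simp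
  simp only [e1]
  simp only [e2, div_eq_mul_inv _ K]
  generalize (K⁻¹ * (v.N Q : ℝ))⁻¹ = x at h1 ⊢
  generalize K⁻¹ = y at h1 ⊢
  apply mul_left_cancel₀ hw
  push_cast
  have e3 : ∀ z : ℂ, (Units.torsionOrder F : ℂ) * ((Fintype.card (ClassGroup (𝓞 F)) : ℂ) /
      (Units.torsionOrder F : ℂ) * z) = (Fintype.card (ClassGroup (𝓞 F)) : ℂ) * z := fun z => by field_simp
  rw [mul_add, e3, h1, mul_left_comm (Units.torsionOrder F : ℂ), mul_add (Units.torsionOrder F : ℂ), e3]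

theorem _root_.Crest.Agent.R27.stPois : StPois := by
  intro F _ _ _ v P hP
  have := totC v
  have h := isPhi F
  have hq := two_le_qS v
  have hd := rD_pos F
  refine ⟨⟨W v, Fintype.card (ClassGroup (𝓞 F)) / Units.torsionOrder F, ?_⟩, count v hP, link v hP⟩
  let _ := v.dt P
  exact
    { w_pos := div_pos (by exact_mod_cast Fintype.card_pos) (by exact_mod_cast Units.torsionOrder_pos F)
      nonneg := WW_nonneg h hq hd
      cont := WW_cont h hq hd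
      lower := WW_lower h hq hd
      upper := fun σ hσ => WW_upper h hq hd hσ
      mel := fun σ hσ => WW_mel h hq hd hσ
      mel_lower := fun σ₁ σ₂ hσ => WW_mel_lower h hq hd σ₁ σ₂ hσ
      poisson := fun Q Ψ K hQ hΨ hU hK => poisson v hP hQ hΨ hU hK }

end Crest.Agent.R27.Po
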