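import Crest.Agent.R27.Po.Defs

/-! Row 27, block Po (owner helper12): analysis of the weight. -/

set_option autoImplicit false

namespace Crest.Agent.R27.Po

open NumberField MeasureTheory Crest.NumberTheoryR.EisensteinField G Ku
open scoped Classical Real nonZeroDivisors

variable {T : Type} [Fintype T] {q : T → ℝ} {φ : ℝ → ℝ} {d : ℝ}

/-- An-a -/
theorem one_le_qf (hq : ∀ i, 2 ≤ q i) (f : T → ℕ) : 1 ≤ qf q f := by
  unfold qf
  exact Finset.one_le_prod fun i _ => one_le_pow₀ (by linarith [hq i])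

theorem ana_geom_fin (n : ℕ) : ∀ {x : Fin n → ℂ}, (∀ i, ‖x i‖ < 1) →
    Summable (fun f : Fin n → ℕ => ‖∏ i, x i ^ f i‖) ∧
      HasSum (fun f : Fin n → ℕ => ∏ i, x i ^ f i) (∏ i, (1 - x i)⁻¹) := by
  induction n with
  | zero =>
    intro x _
    refine ⟨Summable.of_finite, ?_⟩
    simp
  | succ n ih =>
    intro x hx
    obtain ⟨h1, h2⟩ := ih (x := fun i => x i.succ) (fun i => hx i.succ)
    have g1 : Summable (fun k : ℕ => ‖x 0 ^ k‖) := by
      simpa [norm_pow] using summable_geometric_of_lt_one (norm_nonneg _) (hx 0)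
    have g2 : HasSum (fun k : ℕ => x 0 ^ k) (1 - x 0)⁻¹ := hasSum_geometric_of_norm_lt_one (hx 0)
    have s1 := Summable.mul_norm (f := fun k : ℕ => x 0 ^ k)
      (g := fun f : Fin n → ℕ => ∏ i : Fin n, x i.succ ^ f i) g1 h1
    have s2 := HasSum.mul (f := fun k : ℕ => x 0 ^ k)
      (g := fun f : Fin n → ℕ => ∏ i : Fin n, x i.succ ^ f i) g2 h2 s1.of_norm
    let e : ℕ × (Fin n → ℕ) ≃ (Fin (n + 1) → ℕ) := Fin.consEquiv (fun _ => ℕ)
    have he : ∀ p : ℕ × (Fin n → ℕ), (∏ i, x i ^ (e p) i) = x 0 ^ p.1 * ∏ i : Fin n, x i.succ ^ p.2 i := by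
      intro p
      rw [Fin.prod_univ_succ]
      simp [e, Fin.consEquiv]
    constructor
    · rw [← e.summable_iff]
      refine s1.congr fun p => ?_
      simp only [Function.comp, he]
    · rw [← e.hasSum_iff, Fin.prod_univ_succ]
      have : ((fun f : Fin (n + 1) → ℕ => ∏ i, x i ^ f i) ∘ e) =
          fun p : ℕ × (Fin n → ℕ) => x 0 ^ p.1 * ∏ i : Fin n, x i.succ ^ p.2 i := funext he
      rw [this]
      exact s2

/-- An-a.  product of geometric series (induction on `T`: `Fintype.induction_empty_option` /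
`Finset.induction_on`, `Equiv.piOptionEquivProd` or `Fin.consEquiv`, `HasSum.mul_of_summable_norm`-type lemmas) -/
theorem hasSum_geom {x : T → ℂ} (hx : ∀ i, ‖x i‖ < 1) :
    Summable (fun f : T → ℕ => ‖∏ i, x i ^ f i‖) ∧
      HasSum (fun f : T → ℕ => ∏ i, x i ^ f i) (∏ i, (1 - x i)⁻¹) := by
  let e := Fintype.equivFin T
  obtain ⟨h1, h2⟩ := ana_geom_fin _ (x := fun i => x (e.symm i)) (fun i => hx _)
  let E : (Fin (Fintype.card T) → ℕ) ≃ (T → ℕ) := Equiv.arrowCongr e.symm (Equiv.refl ℕ)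
  have hE : ∀ g : Fin (Fintype.card T) → ℕ, (∏ i, x i ^ (E g) i) = ∏ i, x (e.symm i) ^ g i := by
    intro g
    rw [← e.symm.prod_comp]
    simp [E]
  constructor
  · rw [← E.summable_iff]
    refine h1.congr fun p => ?_
    simp only [Function.comp, hE]
  · rw [← E.hasSum_iff, ← e.symm.prod_comp]
    convert h2 using 1
    funext p
    simp only [Function.comp, hE]

theorem ana_cpow (hq : ∀ i, 2 ≤ q i) (s : ℂ) (f : T → ℕ) :
    (qf q f : ℂ) ^ (-s) = ∏ i, ((q i : ℂ) ^ (-s)) ^ f i := by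
  have hpos : ∀ i, 0 < q i := fun i => by linarith [hq i]
  have h1 : (0 : ℝ) < qf q f := lt_of_lt_of_le one_pos (one_le_qf hq f)
  rw [Complex.cpow_def_of_ne_zero (by exact_mod_cast h1.ne'), ← Complex.ofReal_log h1.le]
  have h2 : ∀ i, ((q i : ℂ) ^ (-s)) ^ f i = Complex.exp ((f i : ℂ) * ((Real.log (q i) : ℂ) * (-s))) := by
    intro i
    rw [Complex.cpow_def_of_ne_zero (by exact_mod_cast (hpos i).ne'), ← Complex.ofReal_log (hpos i).le,
      Complex.exp_nat_mul]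
  simp_rw [h2]
  rw [← Complex.exp_sum]
  congr 1
  unfold qf
  rw [Real.log_prod (fun i _ => (pow_pos (hpos i) _).ne')]
  push_cast
  rw [Finset.sum_mul]
  refine Finset.sum_congr rfl fun i _ => ?_
  rw [Real.log_pow]
  push_cast
  ring

/-- An-a.  `hasSum_geom` with `x i = q i ^ (-s)` -/
theorem hasSum_qf (hq : ∀ i, 2 ≤ q i) {s : ℂ} (hs : 0 < s.re) :
    Summable (fun f : T → ℕ => qf q f ^ (-s.re)) ∧
      HasSum (fun f : T → ℕ => (qf q f : ℂ) ^ (-s)) (∏ i, (1 - (q i : ℂ) ^ (-s))⁻¹) ∧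
      ∀ i, (1 - (q i : ℂ) ^ (-s)) ≠ 0 ∧ ‖1 - (q i : ℂ) ^ (-s)‖ ≤ 2 := by
  have hpos : ∀ i, 0 < q i := fun i => by linarith [hq i]
  have hx : ∀ i, ‖(q i : ℂ) ^ (-s)‖ < 1 := by
    intro i
    rw [Complex.norm_cpow_eq_rpow_re_of_pos (hpos i)]
    exact Real.rpow_lt_one_of_one_lt_of_neg (by linarith [hq i]) (by simpa using hs)
  obtain ⟨h1, h2⟩ := hasSum_geom (x := fun i => (q i : ℂ) ^ (-s)) hx
  refine ⟨h1.congr fun f => ?_, ?_, fun i => ⟨?_, ?_⟩⟩
  · rw [← ana_cpow hq s f,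
      Complex.norm_cpow_eq_rpow_re_of_pos (lt_of_lt_of_le one_pos (one_le_qf hq f)), Complex.neg_re]
  · simpa only [ana_cpow hq s] using h2
  · intro h0
    have : (q i : ℂ) ^ (-s) = 1 := (sub_eq_zero.1 h0).symm
    have h := hx i
    rw [this, norm_one] at h
    exact lt_irrefl _ h
  · calc ‖1 - (q i : ℂ) ^ (-s)‖ ≤ ‖(1 : ℂ)‖ + ‖(q i : ℂ) ^ (-s)‖ := norm_sub_le _ _
      _ ≤ 2 := by rw [norm_one]; linarith [hx i]

/-- An-a.  `φ t * ∫_{t/2}^{t} u^(σ-1) ≤ ∫_0^∞ φ u * u^(σ-1)` -/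
theorem IsPhi.upper (h : IsPhi φ) {σ : ℝ} (hσ : 0 < σ) :
    ∃ C : ℝ, 0 < C ∧ ∀ t, 0 < t → φ t ≤ C * t ^ (-σ) := by
  obtain ⟨r, J, c, -, -, -, hm⟩ := h.mel
  have hc := (hm (σ : ℂ) (by simpa using hσ)).1
  have hint : IntegrableOn (fun u : ℝ => u ^ (σ - 1) * φ u) (Set.Ioi 0) := by
    have := hc.norm
    refine (IntegrableOn.congr_fun this (fun u hu => ?_) measurableSet_Ioi)
    have hu' : (0 : ℝ) < u := hu
    simp only [norm_smul, Complex.norm_real, Complex.norm_cpow_eq_rpow_re_of_pos hu', Complex.sub_re,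
      Complex.ofReal_re, Complex.one_re, Real.norm_eq_abs, abs_of_pos (h.pos u hu')]
  set I : ℝ := ∫ u in Set.Ioi (0 : ℝ), u ^ (σ - 1) * φ u with hI
  have hI0 : 0 ≤ I := setIntegral_nonneg measurableSet_Ioi fun u hu =>
    mul_nonneg (Real.rpow_nonneg (le_of_lt hu) _) (h.pos u hu).le
  refine ⟨σ * I + 1, by positivity, fun t ht => ?_⟩
  have hφ := h.pos t ht
  have h1 : ∫ u in Set.Ioc (0 : ℝ) t, u ^ (σ - 1) * φ t ≤ I := by
    calc ∫ u in Set.Ioc (0 : ℝ) t, u ^ (σ - 1) * φ t ≤ ∫ u in Set.Ioc (0 : ℝ) t, u ^ (σ - 1) * φ u := by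
          refine setIntegral_mono_on ?_ (hint.mono_set Set.Ioc_subset_Ioi_self) measurableSet_Ioc fun u hu => ?_
          · exact ((intervalIntegral.intervalIntegrable_rpow' (a := 0) (b := t) (by linarith)).1).mul_const _
          · exact mul_le_mul_of_nonneg_left (h.anti hu.1 ht hu.2) (Real.rpow_nonneg hu.1.le _)
      _ ≤ I := by
          refine setIntegral_mono_set hint ?_ (Filter.Eventually.of_forall Set.Ioc_subset_Ioi_self)
          filter_upwards [ae_restrict_mem measurableSet_Ioi] with u hu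
          exact mul_nonneg (Real.rpow_nonneg (le_of_lt hu) _) (h.pos u hu).le
  rw [integral_mul_const, ← intervalIntegral.integral_of_le ht.le,
    integral_rpow (Or.inl (by linarith)), sub_add_cancel, Real.zero_rpow hσ.ne', sub_zero] at h1
  have htσ : 0 < t ^ σ := Real.rpow_pos_of_pos ht _
  rw [Real.rpow_neg ht.le, ← div_eq_mul_inv, le_div_iff₀ htσ]
  rw [div_mul_eq_mul_div, div_le_iff₀ hσ] at h1
  nlinarith

theorem ana_term (h : IsPhi φ) (hq : ∀ i, 2 ≤ q i) (hd : 0 < d) {σ : ℝ} (hσ : 0 < σ) :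
    ∃ C : ℝ, 0 < C ∧ ∀ y, 0 < y → ∀ f : T → ℕ, φ (y * qf q f / d) ≤ C * y ^ (-σ) * qf q f ^ (-σ) := by
  obtain ⟨C, hC, hb⟩ := h.upper hσ
  refine ⟨C * d ^ σ, by positivity, fun y hy f => ?_⟩
  have h1 : (0 : ℝ) < qf q f := lt_of_lt_of_le one_pos (one_le_qf hq f)
  refine (hb _ (by positivity)).trans (le_of_eq ?_)
  rw [Real.div_rpow (by positivity) hd.le, Real.mul_rpow hy.le h1.le, Real.rpow_neg hd.le]
  field_simp

theorem ana_sum (hq : ∀ i, 2 ≤ q i) {σ : ℝ} (hσ : 0 < σ) : Summable fun f : T → ℕ => qf q f ^ (-σ) := by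
  simpa using (hasSum_qf hq (s := (σ : ℂ)) (by simpa using hσ)).1

theorem ana_pos (h : IsPhi φ) (hq : ∀ i, 2 ≤ q i) (hd : 0 < d) {y : ℝ} (hy : 0 < y) (f : T → ℕ) :
    0 < φ (y * qf q f / d) := by
  have h1 : (0 : ℝ) < qf q f := lt_of_lt_of_le one_pos (one_le_qf hq f)
  exact h.pos _ (by positivity)

/-- An-a -/
theorem summable_WW (h : IsPhi φ) (hq : ∀ i, 2 ≤ q i) (hd : 0 < d) {y : ℝ} (hy : 0 < y) :
    Summable fun f : T → ℕ => φ (y * qf q f / d) := by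
  obtain ⟨C, -, hb⟩ := ana_term h hq hd one_pos
  exact Summable.of_nonneg_of_le (fun f => (ana_pos h hq hd hy f).le) (hb y hy)
    ((ana_sum hq one_pos).mul_left _)

/-- An-a -/
theorem WW_nonneg (h : IsPhi φ) (hq : ∀ i, 2 ≤ q i) (hd : 0 < d) (y : ℝ) : 0 ≤ WW q φ d y := by
  unfold WW
  split_ifs with hy
  · exact tsum_nonneg fun f => (ana_pos h hq hd hy f).le
  · exact le_rfl

/-- An-a.  the term `f = 0` -/
theorem WW_lower (h : IsPhi φ) (hq : ∀ i, 2 ≤ q i) (hd : 0 < d) :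
    ∃ c : ℝ, 0 < c ∧ ∀ y, 0 < y → y ≤ 1 → c ≤ WW q φ d y := by
  refine ⟨φ (1 / d), h.pos _ (by positivity), fun y hy hy1 => ?_⟩
  unfold WW
  rw [if_pos hy]
  refine le_trans ?_ ((summable_WW h hq hd hy).le_tsum 0 fun f _ => (ana_pos h hq hd hy f).le)
  have h0 : qf q 0 = 1 := by simp [qf]
  rw [h0, mul_one]
  exact h.anti (show (0 : ℝ) < y / d by positivity) (show (0 : ℝ) < 1 / d by positivity)
    (div_le_div_of_nonneg_right hy1 hd.le)

/-- An-a -/
theorem WW_upper (h : IsPhi φ) (hq : ∀ i, 2 ≤ q i) (hd : 0 < d) {σ : ℝ} (hσ : 0 < σ) :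
    ∃ C : ℝ, ∀ y, 0 < y → WW q φ d y ≤ C * y ^ (-σ) := by
  obtain ⟨C, -, hb⟩ := ana_term h hq hd hσ
  refine ⟨C * ∑' f : T → ℕ, qf q f ^ (-σ), fun y hy => ?_⟩
  unfold WW
  rw [if_pos hy]
  refine ((summable_WW h hq hd hy).tsum_le_tsum (hb y hy) ((ana_sum hq hσ).mul_left _)).trans (le_of_eq ?_)
  rw [tsum_mul_left]
  ring

/-- An-b.  `continuousOn_tsum` on `Ioi δ` -/
theorem WW_cont (h : IsPhi φ) (hq : ∀ i, 2 ≤ q i) (hd : 0 < d) : ContinuousOn (WW q φ d) (Set.Ioi 0) := by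
  intro y₀ hy₀
  have hy₀' : 0 < y₀ := hy₀
  have hδ : 0 < y₀ / 2 := by positivity
  have hqf : ∀ f : T → ℕ, 0 < qf q f := fun f => lt_of_lt_of_le one_pos (one_le_qf hq f)
  have hc : ContinuousOn (fun y => ∑' f : T → ℕ, φ (y * qf q f / d)) (Set.Ioi (y₀ / 2)) := by
    refine continuousOn_tsum (fun f => ?_) (summable_WW h hq hd hδ) fun f y hy => ?_
    · refine h.cont.comp (by fun_prop) fun y hy => ?_
      have hy' : 0 < y := hδ.trans hy
      have := hqf f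
      exact Set.mem_Ioi.2 (by positivity)
    · have hy' : 0 < y := hδ.trans hy
      have h1 := hqf f
      have h2 : 0 < y * qf q f / d := by positivity
      have h3 : 0 < y₀ / 2 * qf q f / d := by positivity
      rw [Real.norm_eq_abs, abs_of_pos (h.pos _ h2)]
      refine h.anti h3 h2 ?_
      have hy2 : y₀ / 2 ≤ y := le_of_lt hy
      gcongr
  have hc' : ContinuousOn (WW q φ d) (Set.Ioi (y₀ / 2)) :=
    hc.congr fun y hy => by
      have hy' : 0 < y := hδ.trans hy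
      simp only [WW, if_pos hy']
  exact (hc'.continuousAt (Ioi_mem_nhds (by linarith))).continuousWithinAt

lemma anb_integral_norm {g : ℝ → ℝ} (hg : ∀ t, 0 < t → 0 ≤ g t) (s : ℂ) :
    ∫ t in Set.Ioi (0 : ℝ), ‖(t : ℂ) ^ (s - 1) • (g t : ℂ)‖ =
      ‖mellin (fun t => (g t : ℂ)) (s.re : ℂ)‖ := by
  have h1 : mellin (fun t => (g t : ℂ)) (s.re : ℂ) =
      ((∫ t in Set.Ioi (0 : ℝ), ‖(t : ℂ) ^ (s - 1) • (g t : ℂ)‖ : ℝ) : ℂ) := by
    rw [mellin, ← integral_complex_ofReal]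
    refine setIntegral_congr_fun measurableSet_Ioi fun t ht => ?_
    have ht' : 0 < t := ht
    simp only [smul_eq_mul, norm_mul]
    rw [Complex.norm_cpow_eq_rpow_re_of_pos ht', Complex.norm_real, Real.norm_eq_abs,
      abs_of_nonneg (hg t ht'), Complex.ofReal_mul, Complex.ofReal_cpow ht'.le]
    simp
  rw [h1, Complex.norm_real, Real.norm_eq_abs,
    abs_of_nonneg (integral_nonneg fun t => norm_nonneg _)]

/-- An-b.  `hasSum_integral_of_summable_integral_norm` (or `integral_tsum`), `mellin_comp_mul_left`,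
`MellinConvergent.comp_mul_left`; convergence from `WW_cont`, `WW_upper` (`mellinConvergent_of_isBigO_rpow`) -/
theorem WW_mellin (h : IsPhi φ) (hq : ∀ i, 2 ≤ q i) (hd : 0 < d) {s : ℂ} (hs : 0 < s.re) :
    MellinConvergent (fun y => (WW q φ d y : ℂ)) s ∧ mellin (fun y => (WW q φ d y : ℂ)) s =
      (d : ℂ) ^ s * (∏ i, (1 - (q i : ℂ) ^ (-s))⁻¹) * mellin (fun t => (φ t : ℂ)) s := by
  have hqf : ∀ f : T → ℕ, 0 < qf q f := fun f => lt_of_lt_of_le one_pos (one_le_qf hq f)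
  have ha : ∀ f : T → ℕ, 0 < qf q f / d := fun f => div_pos (hqf f) hd
  constructor
  · have hbig : ∀ σ : ℝ, 0 < σ → ∀ l : Filter ℝ, (∀ᶠ y in l, 0 < y) →
        (fun y => (WW q φ d y : ℂ)) =O[l] (· ^ (-σ)) := by
      intro σ hσ l hl
      obtain ⟨C, hC⟩ := WW_upper h hq hd hσ
      refine Asymptotics.IsBigO.of_bound C (hl.mono fun y hy => ?_)
      rw [Complex.norm_real, Real.norm_eq_abs, abs_of_nonneg (WW_nonneg h hq hd y),
        Real.norm_eq_abs, abs_of_nonneg (Real.rpow_nonneg hy.le _)]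
      exact hC y hy
    refine mellinConvergent_of_isBigO_rpow (a := s.re + 1) (b := s.re / 2) ?_
      (hbig _ (by linarith) _ (Filter.eventually_gt_atTop 0)) (by linarith)
      (hbig _ (by linarith) _ self_mem_nhdsWithin) (by linarith)
    exact (Complex.continuous_ofReal.comp_continuousOn (WW_cont h hq hd)).locallyIntegrableOn
      measurableSet_Ioi
  · obtain ⟨r, J, c, -, -, -, hmel⟩ := h.mel
    obtain ⟨hsum, hhas, -⟩ := hasSum_qf hq hs
    have hint : ∀ f : T → ℕ, Integrable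
        (fun t : ℝ => (t : ℂ) ^ (s - 1) • (φ (qf q f / d * t) : ℂ)) (volume.restrict (Set.Ioi 0)) :=
      fun f => (MellinConvergent.comp_mul_left (f := fun t => (φ t : ℂ)) (ha f)).2 (hmel s hs).1
    have hnorm : ∀ f : T → ℕ, ∫ t in Set.Ioi (0 : ℝ), ‖(t : ℂ) ^ (s - 1) • (φ (qf q f / d * t) : ℂ)‖ =
        qf q f ^ (-s.re) * (d ^ s.re * ‖mellin (fun t => (φ t : ℂ)) (s.re : ℂ)‖) := by
      intro f
      rw [anb_integral_norm (g := fun t => φ (qf q f / d * t))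
        (fun t ht => (h.pos _ (mul_pos (ha f) ht)).le),
        mellin_comp_mul_left (fun t => (φ t : ℂ)) _ (ha f), norm_smul,
        Complex.norm_cpow_eq_rpow_re_of_pos (ha f), Real.div_rpow (hqf f).le hd.le]
      simp only [Complex.neg_re, Complex.ofReal_re]
      rw [Real.rpow_neg hd.le, div_inv_eq_mul, mul_assoc]
    have hS := hasSum_integral_of_summable_integral_norm hint (by
      simp only [hnorm]
      exact hsum.mul_right _)
    have hterm : ∀ f : T → ℕ, ∫ t in Set.Ioi (0 : ℝ), (t : ℂ) ^ (s - 1) • (φ (qf q f / d * t) : ℂ) =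
        (d : ℂ) ^ s * (qf q f : ℂ) ^ (-s) * mellin (fun t => (φ t : ℂ)) s := by
      intro f
      have h1 := mellin_comp_mul_left (fun t => (φ t : ℂ)) s (ha f)
      rw [mellin] at h1
      rw [h1, smul_eq_mul, div_eq_mul_inv, Complex.ofReal_mul,
        Complex.mul_cpow_ofReal_nonneg (hqf f).le (inv_nonneg.2 hd.le), Complex.ofReal_inv,
        Complex.inv_cpow _ _ (by rw [Complex.arg_ofReal_of_nonneg hd.le]; exact Real.pi_pos.ne),
        ← Complex.cpow_neg, neg_neg]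
      ring
    simp only [hterm] at hS
    have hS' := (hhas.mul_left ((d : ℂ) ^ s)).mul_right (mellin (fun t => (φ t : ℂ)) s)
    rw [hS'.unique hS, mellin]
    refine setIntegral_congr_fun measurableSet_Ioi fun t ht => ?_
    have ht' : 0 < t := ht
    simp only [WW, if_pos ht', smul_eq_mul]
    rw [tsum_mul_left, Complex.ofReal_tsum]
    congr 1
    refine tsum_congr fun f => ?_
    congr 2
    ring

/-- An-c.  `w τ = mellin W (σ + τ I) / (2π)`; `mellin_inversion`, `WW_mellin`, `R17.norm_Gamma_le_exp`,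
`R17.norm_Gamma_le`, `R17.gA_continuous_line`; `‖1 - q^(-s)‖ ≥ 1 - 2^(-σ)` -/
theorem WW_mel (h : IsPhi φ) (hq : ∀ i, 2 ≤ q i) (hd : 0 < d) {σ : ℝ} (hσ : 0 < σ) :
    ∃ (C : ℝ) (w : ℝ → ℂ), Continuous w ∧ (∀ τ, ‖w τ‖ ≤ C * Real.exp (-|τ|)) ∧
      ∀ y : ℝ, 0 < y → (WW q φ d y : ℂ) = ∫ τ : ℝ, w τ * (y : ℂ) ^ (-((σ : ℂ) + τ * Complex.I)) := by
  obtain ⟨r, J, c, hr, hJ, hc, hm⟩ := h.mel
  have hs : ∀ τ : ℝ, ((σ : ℂ) + τ * Complex.I).re = σ := fun τ => by simp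
  have hs' : ∀ τ : ℝ, 0 < ((σ : ℂ) + τ * Complex.I).re := fun τ => (hs τ).symm ▸ hσ
  have hq0 : ∀ i, 0 < q i := fun i => two_pos.trans_le (hq i)
  have hcp : ∀ {x : ℝ}, 0 < x → Continuous fun τ : ℝ => (x : ℂ) ^ (-((σ : ℂ) + τ * Complex.I)) :=
    fun hx => Continuous.const_cpow (by fun_prop) (Or.inl (Complex.ofReal_ne_zero.2 hx.ne'))
  have hcont : Continuous fun τ : ℝ => mellin (fun y => (WW q φ d y : ℂ)) (σ + τ * Complex.I) := by
    simp only [(WW_mellin h hq hd (hs' _)).2, (hm _ (hs' _)).2]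
    exact ((Continuous.const_cpow (by fun_prop) (Or.inl (Complex.ofReal_ne_zero.2 hd.ne'))).mul
      (continuous_finsetProd _ fun i _ => (continuous_const.sub (hcp (hq0 i))).inv₀
        fun τ => ((hasSum_qf hq (hs' τ)).2.2 i).1)).mul
      (continuous_const.mul (((hcp hc).mul (R17.gA_continuous_line hσ)).pow r))
  obtain ⟨C, hC⟩ : ∃ C : ℝ, ∀ τ : ℝ,
      ‖mellin (fun y => (WW q φ d y : ℂ)) (σ + τ * Complex.I)‖ ≤ C * Real.exp (-|τ|) := by
    refine ⟨d ^ σ * (∏ i, (1 - q i ^ (-σ))⁻¹) * (J * (c ^ (-σ) * (Real.Gamma σ * 2 ^ σ)) ^ r), fun τ => ?_⟩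
    have h1 := R17.norm_Gamma_le_exp (hs' τ)
    rw [hs, show ((σ : ℂ) + τ * Complex.I).im = τ by simp] at h1
    have h2 : ∀ i, ‖(1 - (q i : ℂ) ^ (-((σ : ℂ) + τ * Complex.I)))⁻¹‖ ≤ (1 - q i ^ (-σ))⁻¹ := fun i => by
      rw [norm_inv]
      refine inv_anti₀ (sub_pos.2 (Real.rpow_lt_one_of_one_lt_of_neg (one_lt_two.trans_le (hq i))
        (neg_lt_zero.2 hσ))) (le_of_eq_of_le ?_ (norm_sub_norm_le _ _))
      rw [norm_one, Complex.norm_cpow_eq_rpow_re_of_pos (hq0 i), Complex.neg_re, hs]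
    have h3 : Real.exp (-|τ|) ^ r ≤ Real.exp (-|τ|) :=
      pow_le_of_le_one (Real.exp_pos _).le (Real.exp_le_one_iff.2 (neg_nonpos.2 (abs_nonneg τ))) hr.ne'
    have h4 := Real.Gamma_pos_of_pos hσ
    have h5 := Finset.prod_le_prod (s := Finset.univ) (fun i _ => norm_nonneg _) fun i _ => h2 i
    have h6 := (Finset.prod_nonneg fun i _ => norm_nonneg _).trans h5
    rw [(WW_mellin h hq hd (hs' _)).2, (hm _ (hs' _)).2, norm_mul, norm_mul, norm_mul, norm_pow, norm_mul,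
      norm_prod, Complex.norm_cpow_eq_rpow_re_of_pos hd, Complex.norm_cpow_eq_rpow_re_of_pos hc,
      Complex.neg_re, hs, Complex.norm_of_nonneg hJ.le]
    calc _ ≤ d ^ σ * (∏ i, (1 - q i ^ (-σ))⁻¹) *
          (J * (c ^ (-σ) * (Real.Gamma σ * 2 ^ σ * Real.exp (-|τ|))) ^ r) := by gcongr
      _ = d ^ σ * (∏ i, (1 - q i ^ (-σ))⁻¹) * (J * (c ^ (-σ) * (Real.Gamma σ * 2 ^ σ)) ^ r) *
          Real.exp (-|τ|) ^ r := by ring
      _ ≤ _ := by gcongr
  refine ⟨1 / (2 * π) * C, fun τ => (1 / (2 * π) : ℝ) •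
    mellin (fun y => (WW q φ d y : ℂ)) (σ + τ * Complex.I), hcont.const_smul (1 / (2 * π) : ℝ), fun τ => ?_, fun y hy => ?_⟩
  · rw [norm_smul, Real.norm_of_nonneg (by positivity), mul_assoc]
    exact mul_le_mul_of_nonneg_left (hC τ) (by positivity)
  · have hi := (R17.gA_integrable_exp_poly 0).const_mul C
    simp only [Real.rpow_zero, mul_one] at hi
    rw [← mellinInv_mellin_eq σ (fun y => (WW q φ d y : ℂ)) hy (WW_mellin h hq hd (by simpa using hσ)).1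
      (hi.mono' hcont.aestronglyMeasurable (Filter.Eventually.of_forall hC))
      (Complex.continuous_ofReal.continuousAt.comp ((WW_cont h hq hd).continuousAt (Ioi_mem_nhds hy))),
      mellinInv, ← integral_smul]
    exact integral_congr_ae (Filter.Eventually.of_forall fun τ => by
      simp only [smul_mul_assoc, smul_eq_mul]; rw [mul_comm (mellin _ _)])

theorem anc_low {x σ B : ℝ} (hx : 0 < x) (h : |σ| ≤ B) : Real.exp (-(|Real.log x| * B)) ≤ x ^ σ := by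
  rw [Real.rpow_def_of_pos hx]
  refine Real.exp_le_exp.2 (neg_le.1 ((neg_le_abs _).trans ?_))
  rw [abs_mul]
  gcongr

/-- An-c.  `WW_mellin`, `R17.inv_Gamma_strip`, `hasSum_qf` (last part) -/
theorem WW_mel_lower (h : IsPhi φ) (hq : ∀ i, 2 ≤ q i) (hd : 0 < d) (σ₁ σ₂ : ℝ) (hσ : 0 < σ₁) :
    ∃ b : ℝ, ∀ s : ℂ, σ₁ ≤ s.re → s.re ≤ σ₂ →
      Real.exp (-(b * (1 + |s.im|))) ≤ ‖mellin (fun y => (WW q φ d y : ℂ)) s‖ := by
  obtain ⟨r, J, c, hr, hJ, hc, hm⟩ := h.mel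
  obtain ⟨C, hC, hG⟩ := R17.inv_Gamma_strip σ₁ σ₂
  obtain ⟨K, hK⟩ : ∃ K : ℝ, K = Real.exp (-(|Real.log d| * σ₂)) * (∏ _i : T, (2 : ℝ)⁻¹) *
    (J * (Real.exp (-(|Real.log c| * σ₂)) * C⁻¹) ^ r) := ⟨_, rfl⟩
  have hK0 : 0 < K := by rw [hK]; positivity
  refine ⟨max (π * r) (-Real.log K), fun s h1 h2 => ?_⟩
  have hs : 0 < s.re := hσ.trans_le h1
  have h3 : C⁻¹ * Real.exp (-(π * |s.im|)) ≤ ‖Complex.Gamma s‖ := by
    rw [Real.exp_neg, ← mul_inv]
    exact inv_le_of_inv_le₀ (norm_pos_iff.2 (Complex.Gamma_ne_zero_of_re_pos hs))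
      (norm_inv (Complex.Gamma s) ▸ hG s ⟨h1, h2⟩)
  have h4 : ∀ i, (2 : ℝ)⁻¹ ≤ ‖(1 - (q i : ℂ) ^ (-s))⁻¹‖ := fun i => by
    rw [norm_inv]
    exact inv_anti₀ (norm_pos_iff.2 ((hasSum_qf hq hs).2.2 i).1) ((hasSum_qf hq hs).2.2 i).2
  have h5 := anc_low hd (σ := s.re) ((abs_of_pos hs).trans_le h2)
  have h6 := anc_low hc (σ := -s.re) (((abs_neg _).trans (abs_of_pos hs)).trans_le h2)
  rw [(WW_mellin h hq hd hs).2, (hm _ hs).2, norm_mul, norm_mul, norm_mul, norm_pow, norm_mul,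
    norm_prod, Complex.norm_cpow_eq_rpow_re_of_pos hd, Complex.norm_cpow_eq_rpow_re_of_pos hc,
    Complex.neg_re, Complex.norm_of_nonneg hJ.le]
  calc _ ≤ Real.exp (Real.log K + r * -(π * |s.im|)) := by
        refine Real.exp_le_exp.2 ?_
        nlinarith [le_max_right (π * r) (-Real.log K),
          mul_le_mul_of_nonneg_right (le_max_left (π * r) (-Real.log K)) (abs_nonneg s.im)]
    _ = Real.exp (-(|Real.log d| * σ₂)) * (∏ _i : T, (2 : ℝ)⁻¹) *
        (J * (Real.exp (-(|Real.log c| * σ₂)) * (C⁻¹ * Real.exp (-(π * |s.im|)))) ^ r) := by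
        rw [Real.exp_add, Real.exp_log hK0, Real.exp_nat_mul, hK]
        ring
    _ ≤ _ := by
        gcongr with i
        exact h4 i

end Crest.Agent.R27.Po
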