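import Crest.Agent.R27.Model
import Crest.Agent.R27.G.Psi
import Crest.Agent.R27.Ku.Unf
import Crest.Agent.R27.Ku.Gam

/-!
# Row 27, block Po (owner helper12): Poisson summation over the ideals of `R = 𝓞 F[1/M]`.  Definitions.

Hecke's theta integral: Gaussian Poisson summation on an ideal `𝔟` (supported on the primes over `M`, one in each
class), integrated over the unit torus.  `W y = ∑_𝔰 φ(y N𝔰 / √|D|)` over the ideals `𝔰` supported on the primes over `M`.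
-/

set_option autoImplicit false

namespace Crest.Agent.R27.Po

open NumberField MeasureTheory Crest.NumberTheoryR.EisensteinField G Ku
open scoped Classical Real nonZeroDivisors

noncomputable section

/-- `∏ q_i ^ f_i` -/
def qf {T : Type} [Fintype T] (q : T → ℝ) (f : T → ℕ) : ℝ := ∏ i, q i ^ f i

/-- the weight built from `φ` -/
def WW {T : Type} [Fintype T] (q : T → ℝ) (φ : ℝ → ℝ) (d y : ℝ) : ℝ :=
  if 0 < y then ∑' f : T → ℕ, φ (y * qf q f / d) else 0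

/-- what is used about the archimedean weight -/
structure IsPhi (φ : ℝ → ℝ) : Prop where
  pos : ∀ t, 0 < t → 0 < φ t
  anti : AntitoneOn φ (Set.Ioi 0)
  cont : ContinuousOn φ (Set.Ioi 0)
  mel : ∃ (r : ℕ) (J c : ℝ), 0 < r ∧ 0 < J ∧ 0 < c ∧ ∀ s : ℂ, 0 < s.re →
    MellinConvergent (fun t => (φ t : ℂ)) s ∧
      mellin (fun t => (φ t : ℂ)) s = J * ((c : ℂ) ^ (-s) * Complex.Gamma s) ^ r

section NF
variable (K : Type) [Field K] [NumberField K]

/-- the archimedean weight -/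
def phi (t : ℝ) : ℝ := phb (ellK K) ∅ t

/-- `√|D|` -/
def rD : ℝ := Real.sqrt |(discr K : ℝ)|

/-- the unit cube -/
abbrev cube : Set (Fin (Units.rank K) → ℝ) := Set.Icc 0 1

variable {K}

/-- the Gaussian at the point `y` of the torus -/
def Gs (y : (K →+* ℂ) → ℝ) (x : K) : ℝ := Real.exp (-(π * ∑ φ : K →+* ℂ, (y φ * ‖φ x‖) ^ 2))

/-- positive and invariant under conjugation -/
def Tor (y : (K →+* ℂ) → ℝ) : Prop := (∀ φ, 0 < y φ) ∧ ∀ φ, y (ComplexEmbedding.conjugate φ) = y φ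

/-- the trace dual of `𝔠` is `γ⁻¹ 𝔟'` -/
def IsDual (𝔠 𝔟' : Ideal (𝓞 K)) (γ : 𝓞 K) : Prop :=
  γ ≠ 0 ∧ ∀ ξ : K, (∀ α ∈ 𝔠, ∃ n : ℤ, Algebra.trace ℚ K (ξ * (α : 𝓞 K)) = n) ↔ ∃ β ∈ 𝔟', ξ = (β : K) / (γ : K)

end NF

section Lev
variable {F : Type} [Field F] [NumberField F] [Algebra K3 F] (v : Lv F)

/-- the primes over `M` -/
def TS : Type := {P : Ideal (𝓞 F) // P ∈ (UniqueFactorizationMonoid.normalizedFactors
  (Ideal.span {(v.M : 𝓞 F)})).toFinset}

instance : Fintype (TS v) := Finset.fintypeCoeSort _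

/-- their norms -/
def qS (P : TS v) : ℝ := Ideal.absNorm P.1

/-- the ideal with exponents `f` -/
def sm (f : TS v → ℕ) : Ideal (𝓞 F) := ∏ P, P.1 ^ f P

/-- supported on the primes over `M` -/
def Sm (𝔟 : Ideal (𝓞 F)) : Prop := ∃ m : ℕ, (v.M : 𝓞 F) ^ m ∈ 𝔟

/-- the weight -/
def W : ℝ → ℝ := WW (qS v) (phi F) (rD F)

/-- a generator of `𝔪 R` -/
def gen (𝔪 : Ideal (𝓞 F)) : v.R := Submodule.IsPrincipal.generator (𝔪.map (algebraMap (𝓞 F) v.R))

/-- the sum over the ideals of one class -/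
def BC (C : ClassGroup (𝓞 F)) (Ψ : v.R → ℂ) (t : ℝ) : ℂ :=
  ∑' I : {I : (Ideal (𝓞 F))⁰ // ClassGroup.mk0 I = C},
    Ψ (gen v (I.1 : Ideal (𝓞 F))) * (phi F (t * Ideal.absNorm (I.1 : Ideal (𝓞 F)) / rD F) : ℝ)

/-- the finite Fourier transform (it is `Ab.FT` for `v.dt P`, by `rfl`) -/
def FT (Q : v.R) (Ψ : v.R → ℂ) (h : v.R) : ℂ :=
  Ab.rsum Q fun y => Ψ y * v.psi (((h * y : v.R) : F) / (Q : F))

end Lev

end

end Crest.Agent.R27.Po
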