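import Crest.Agent.R27.Po.Defs

/-! Row 27, block Po (owner helper12): the archimedean weight. -/

set_option autoImplicit false

namespace Crest.Agent.R27.Po

open NumberField MeasureTheory Crest.NumberTheoryR.EisensteinField G Ku
open scoped Classical Real nonZeroDivisors

variable (K : Type) [Field K] [NumberField K]

theorem rD_pos : 0 < rD K := Real.sqrt_pos.2 embe_d

theorem phia_eq {ι : Type} [Fintype ι] (x : ι → ℝ) : fS ∅ x = Real.exp (-(π * ∑ i, x i ^ 2)) := by
  simp [fS]

theorem phia_pos {ι : Type} [Fintype ι] (x : ι → ℝ) : 0 < fS ∅ x := by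
  rw [phia_eq]; exact Real.exp_pos _

theorem phia_anti {ι κ : Type} [Fintype ι] [Fintype κ] (l : κ → ι → ℝ) {t t' : ℝ} (ht : 0 < t)
    (h : t ≤ t') (c : κ → ℝ) : fS ∅ (yv l t' c) ≤ fS ∅ (yv l t c) := by
  rw [phia_eq, phia_eq, Real.exp_le_exp, neg_le_neg_iff]
  refine mul_le_mul_of_nonneg_left (Finset.sum_le_sum fun i _ => ?_) Real.pi_pos.le
  unfold yv
  exact pow_le_pow_left₀ (by positivity) (mul_le_mul_of_nonneg_right
    (Real.rpow_le_rpow ht.le h (by positivity)) (Real.exp_pos _).le) 2

theorem phia_cont {ι κ : Type} [Fintype ι] [Fintype κ] (l : κ → ι → ℝ) (t : ℝ) :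
    Continuous fun c : κ → ℝ => fS ∅ (yv l t c) := by
  simp only [phia_eq, yv]
  fun_prop

theorem phia_prod : Integrable (fun p : ℝ × (Fin (Units.rank K) → ℝ) =>
    ((fS ∅ (yv (ellK K) (Real.exp (Module.finrank ℚ K * p.1)) p.2) : ℝ) : ℂ) *
      Complex.exp (1 * ((Module.finrank ℚ K : ℝ) * p.1 : ℝ))) (volume.prod volume) := by
  obtain ⟨J, _, hH⟩ := gamc_haar (K := K)
  let g : InfinitePlace K → ℝ → ℂ := fun w v =>
    ((Real.exp v ^ (if false ∧ w.IsReal then 1 else 0) *
      Real.exp (-(π * (w.mult * Real.exp v ^ 2))) : ℝ) : ℂ) * Complex.exp (w.mult * 1 * v)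
  have hF : Integrable fun v : InfinitePlace K → ℝ => ∏ w, g w (v w) :=
    Integrable.fintype_prod (fun w => (gam_int InfinitePlace.mult_pos _ (by simp)).1)
  have h1 := (hH _ hF).1
  have hpt : ∀ p : ℝ × (Fin (Units.rank K) → ℝ), ∏ w, g w (logT K p w) =
      ((fS (Sg K false) (yv (ellK K) (Real.exp (Module.finrank ℚ K * p.1)) p.2) : ℝ) : ℂ) *
        Complex.exp (1 * ((Module.finrank ℚ K : ℝ) * p.1 : ℝ)) := fun p => by
    obtain ⟨y1, y2⟩ := yv_logT (K := K) p
    have e1 : yv (ellK K) (Real.exp (Module.finrank ℚ K * p.1)) p.2 =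
        fun φ => Real.exp (logT K p (InfinitePlace.mk φ)) := funext y1
    rw [e1, fS_places, ← y2, Complex.ofReal_prod, Complex.ofReal_sum, Finset.mul_sum, Complex.exp_sum,
      ← Finset.prod_mul_distrib]
    refine Finset.prod_congr rfl fun w _ => ?_
    simp only [g]
    congr 2
    push_cast
    ring
  simp only [hpt] at h1
  rw [Measure.volume_eq_prod] at h1
  exact h1

/-- Phi-a.  `c ↦ (∑ j, c j * ellK K j φ)_φ` is an injective linear map (`logT_bij`, `yv_logT`, or `ua_linInd`) whose
values have sum zero (`sum_ellK`), so some coordinate is `≥ δ ‖c‖`; hence the integrand is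
`≤ exp (-a exp (2 δ ‖c‖)) ≤ C (1 + ‖c‖) ^ (-b)` (`integrable_one_add_norm`). -/
theorem phi_integrable {t : ℝ} (ht : 0 < t) :
    Integrable fun c : Fin (Units.rank K) → ℝ => fS ∅ (yv (ellK K) t c) := by
  obtain ⟨τ, hτ, hi⟩ := Measure.exists_mem_of_measure_ne_zero_of_ae
    (μ := (volume : Measure ℝ)) (s := Set.Iic (Real.log t / Module.finrank ℚ K)) (by simp)
    (ae_restrict_of_ae (phia_prod K).prod_right_ae)
  have hn : (0 : ℝ) < Module.finrank ℚ K := by exact_mod_cast Module.finrank_pos
  have hle : Real.exp (Module.finrank ℚ K * τ) ≤ t := by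
    rw [← Real.le_log_iff_exp_le ht, mul_comm]
    exact (le_div_iff₀ hn).1 hτ
  have h1 := (hi.mul_const (Complex.exp (1 * ((Module.finrank ℚ K : ℝ) * τ : ℝ)))⁻¹).re
  simp only [mul_inv_cancel_right₀ (Complex.exp_ne_zero _), RCLike.re_to_complex,
    Complex.ofReal_re] at h1
  refine h1.mono' (phia_cont _ t).aestronglyMeasurable (Filter.Eventually.of_forall fun c => ?_)
  rw [Real.norm_of_nonneg (phia_pos _).le]
  exact phia_anti _ (Real.exp_pos _) hle c

/-- Phi-a.  `phi_integrable`; `yv_mul`; dominated convergence (`continuousAt_of_dominated`, majorant at `t / 2`);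
`mellin_phb` with `e = false` (`Sg K false = ∅`, all places have `mult = 2`,
`gam 2 0 s = 1/2 (2π)^(-s) Γ(s)`, `r = card (InfinitePlace K)`). -/
theorem isPhi [IsTotallyComplex K] : IsPhi (phi K) := by
  refine ⟨fun t ht => ?_, fun t ht t' _ h => ?_, fun t ht => ?_, ?_⟩
  · have h := phi_integrable K ht
    unfold phi phb
    simp only [phia_eq] at h ⊢
    exact integral_exp_pos h
  · exact integral_mono (phi_integrable K (lt_of_lt_of_le ht h)) (phi_integrable K ht)
      fun c => phia_anti _ ht h c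
  · have ht' : 0 < t := ht
    refine ContinuousAt.continuousWithinAt ?_
    refine continuousAt_of_dominated (bound := fun c => fS ∅ (yv (ellK K) (t / 2) c))
      (Filter.Eventually.of_forall fun u => (phia_cont _ u).aestronglyMeasurable) ?_
      (phi_integrable K (half_pos ht')) (Filter.Eventually.of_forall fun c => ?_)
    · filter_upwards [Ioi_mem_nhds (half_lt_self ht')] with u hu
      refine Filter.Eventually.of_forall fun c => ?_
      rw [Real.norm_of_nonneg (phia_pos _).le]
      exact phia_anti _ (half_pos ht') (le_of_lt hu) c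
    · simp only [phia_eq, yv]
      have h1 : ContinuousAt (fun u : ℝ => u ^ (1 / (Fintype.card (K →+* ℂ) : ℝ))) t :=
        Real.continuousAt_rpow_const _ _ (Or.inl ht'.ne')
      refine Real.continuous_exp.continuousAt.comp (ContinuousAt.neg (continuousAt_const.mul ?_))
      exact tendsto_finsetSum _ fun i _ => (h1.mul continuousAt_const).pow 2
  · obtain ⟨J, hJ, hm⟩ := mellin_phb (K := K)
    refine ⟨Fintype.card (InfinitePlace K), J * (1 / 2) ^ Fintype.card (InfinitePlace K), π * 2,
      Fintype.card_pos, by positivity, by positivity, fun s hs => ?_⟩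
    obtain ⟨h1, h2⟩ := hm false s hs
    refine ⟨h1, h2.trans ?_⟩
    have e : ∀ w : InfinitePlace K, gam w.mult (if false ∧ w.IsReal then 1 else 0) s =
        1 / 2 * (((π * 2 : ℝ) : ℂ) ^ (-s) * Complex.Gamma s) := by
      intro w
      have hw : w.mult = 2 := (IsTotallyComplex.isComplex w).mult_eq_two
      have e1 : (((2 : ℕ) : ℂ) * s + (0 : ℕ)) / 2 = s := by push_cast; ring
      rw [hw, if_neg (by simp), gam, e1]
      push_cast
      ring
    rw [Finset.prod_congr rfl fun w _ => e w, Finset.prod_const, Finset.card_univ, mul_pow]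
    push_cast
    ring

end Crest.Agent.R27.Po
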