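import Crest.Agent.R27.Po.An
import Crest.Agent.R27.Po.Phi

/-! Row 27, block Po (owner helper12): ideals of the ring of integers and of R. -/

set_option autoImplicit false

namespace Crest.Agent.R27.Po

open NumberField MeasureTheory Crest.NumberTheoryR.EisensteinField G Ku
open scoped Classical Real nonZeroDivisors

variable {F : Type} [Field F] [NumberField F] [Algebra K3 F] (v : Lv F)

include v in
/-- Idl-a.  `isTotallyComplex_of_algebra`, `IsCyclotomicExtension.Rat.isTotallyComplex` -/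
theorem totC : IsTotallyComplex F := by
  have : IsTotallyComplex K3 := IsCyclotomicExtension.Rat.isTotallyComplex (n := 3) K3 (by norm_num)
  exact isTotallyComplex_of_algebra K3 F

theorem idla_prime (P : TS v) : Prime P.1 :=
  UniqueFactorizationMonoid.prime_of_normalized_factor _ (Multiset.mem_toFinset.1 P.2)

theorem idla_mem (P : TS v) : (v.M : 𝓞 F) ∈ P.1 :=
  Ideal.le_of_dvd (UniqueFactorizationMonoid.dvd_of_mem_normalizedFactors (Multiset.mem_toFinset.1 P.2))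
    (Ideal.mem_span_singleton_self _)

/-- Idl-a -/
theorem two_le_qS (P : TS v) : 2 ≤ qS v P := by
  have h0 : Ideal.absNorm P.1 ≠ 0 := fun h => (idla_prime v P).ne_zero (Ideal.absNorm_eq_zero_iff.1 h)
  have h1 : Ideal.absNorm P.1 ≠ 1 := fun h =>
    (idla_prime v P).not_isUnit (Ideal.isUnit_iff.2 (Ideal.absNorm_eq_one_iff.1 h))
  have h2 : 2 ≤ Ideal.absNorm P.1 := by omega
  rw [qS]
  exact_mod_cast h2

/-- Idl-a -/
theorem absNorm_sm (f : TS v → ℕ) : (Ideal.absNorm (sm v f) : ℝ) = qf (qS v) f := by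
  simp only [sm, qf, qS, map_prod, map_pow, Nat.cast_prod, Nat.cast_pow]

theorem idla_ne_bot {𝔟 : Ideal (𝓞 F)} (h : Sm v 𝔟) : 𝔟 ≠ ⊥ := by
  rintro rfl
  obtain ⟨m, hm⟩ := h
  exact pow_ne_zero m v.M_ne' (Ideal.mem_bot.1 hm)

/-- Idl-a -/
theorem sm_iff {𝔟 : Ideal (𝓞 F)} : Sm v 𝔟 ↔ ∃ f, 𝔟 = sm v f := by
  constructor
  · intro h
    have h0 := idla_ne_bot v h
    obtain ⟨m, hm⟩ := h
    have hM : Ideal.span {(v.M : 𝓞 F)} ≠ ⊥ := fun h => v.M_ne' (Ideal.span_singleton_eq_bot.1 h)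
    refine ⟨fun P => (UniqueFactorizationMonoid.normalizedFactors 𝔟).count P.1, ?_⟩
    have hsub : (UniqueFactorizationMonoid.normalizedFactors 𝔟).toFinset ⊆
        (UniqueFactorizationMonoid.normalizedFactors (Ideal.span {(v.M : 𝓞 F)})).toFinset := by
      intro Q hQ
      rw [Multiset.mem_toFinset, Ideal.mem_normalizedFactors_iff h0] at hQ
      rw [Multiset.mem_toFinset, Ideal.mem_normalizedFactors_iff hM, Ideal.span_singleton_le_iff_mem]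
      exact ⟨hQ.1, hQ.1.mem_of_pow_mem m (hQ.2 hm)⟩
    refine (Ideal.prod_normalizedFactors_eq_self h0).symm.trans
      ((Finset.prod_multiset_count_of_subset _ _ hsub).trans ?_)
    exact (Finset.prod_coe_sort _ fun Q : Ideal (𝓞 F) =>
      Q ^ (UniqueFactorizationMonoid.normalizedFactors 𝔟).count Q).symm
  · rintro ⟨f, rfl⟩
    refine ⟨∑ P, f P, ?_⟩
    rw [← Finset.prod_pow_eq_pow_sum]
    exact Ideal.prod_mem_prod fun P _ => Ideal.pow_mem_pow (idla_mem v P) _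

theorem idla_le {f g : TS v → ℕ} (h : sm v f = sm v g) (P : TS v) : f P ≤ g P := by
  have hP := idla_prime v P
  have h1 : P.1 ^ f P ∣ sm v g := h ▸ Finset.dvd_prod_of_mem (fun Q : TS v => Q.1 ^ f Q) (Finset.mem_univ P)
  rw [sm, ← Finset.mul_prod_erase _ _ (Finset.mem_univ P)] at h1
  refine (pow_dvd_pow_iff hP.ne_zero hP.not_isUnit).1 (hP.pow_dvd_of_dvd_mul_right _ (fun hd => ?_) h1)
  obtain ⟨Q, hQ, hd⟩ := hP.exists_mem_finset_dvd hd
  exact Finset.ne_of_mem_erase hQ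
    (Subtype.ext ((prime_dvd_prime_iff_eq hP (idla_prime v Q)).1 (hP.dvd_of_dvd_pow hd)).symm)

/-- Idl-a -/
theorem sm_injective : Function.Injective (sm v) := by
  intro f g h
  exact funext fun P => le_antisymm (idla_le v h P) (idla_le v h.symm P)

/-- Idl-a -/
theorem Sm.ne_bot {𝔟 : Ideal (𝓞 F)} (h : Sm v 𝔟) : 𝔟 ≠ ⊥ := by
  exact idla_ne_bot v h

/-- Idl-a -/
theorem Sm.map_eq {𝔟 : Ideal (𝓞 F)} (h : Sm v 𝔟) : 𝔟.map (algebraMap (𝓞 F) v.R) = ⊤ := by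
  obtain ⟨m, hm⟩ := h
  exact Ideal.eq_top_of_isUnit_mem _ (Ideal.mem_map_of_mem _ hm) (v.isUnit_up dvd_rfl)

theorem idla_span (𝔪 : Ideal (𝓞 F)) : Ideal.span {gen v 𝔪} = 𝔪.map (algebraMap (𝓞 F) v.R) :=
  Ideal.span_singleton_generator _

/-- Idl-a.  `Ideal.map_mul`, `Sm.map_eq`, `Ideal.span_singleton_generator` -/
theorem gen_assoc {𝔪 𝔟 : Ideal (𝓞 F)} (h : Sm v 𝔟) {α : 𝓞 F} (hα : 𝔪 * 𝔟 = Ideal.span {α}) :
    Associated (gen v 𝔪) (v.up α) := by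
  have h1 := congrArg (Ideal.map (algebraMap (𝓞 F) v.R)) hα
  rw [Ideal.map_mul, h.map_eq, Ideal.mul_top, Ideal.map_span, Set.image_singleton] at h1
  rw [← Ideal.span_singleton_eq_span_singleton, idla_span, h1]

/-- Idl-a.  `map_idl` -/
theorem gen_idl {𝔟 : Ideal (𝓞 F)} (h : Sm v 𝔟) (k : v.R) : Associated (gen v (v.idl k * 𝔟)) k := by
  rw [← Ideal.span_singleton_eq_span_singleton, idla_span, Ideal.map_mul, h.map_eq, Ideal.mul_top, v.map_idl]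

/-- Idl-a.  `ClassGroup.mk0_surjective`, `v.gen`, `ClassGroup.mk0_eq_one_iff` -/
theorem exists_sm (C : ClassGroup (𝓞 F)) : ∃ 𝔟 : (Ideal (𝓞 F))⁰, Sm v 𝔟 ∧ C * ClassGroup.mk0 𝔟 = 1 := by
  obtain ⟨I, rfl⟩ := ClassGroup.mk0_surjective C
  obtain ⟨J, a, hJ, ha⟩ := v.gen I (nonZeroDivisors.coe_ne_zero I)
  have hs : Sm v J := ⟨1, by rwa [pow_one]⟩
  refine ⟨⟨J, mem_nonZeroDivisors_of_ne_zero hs.ne_bot⟩, hs, ?_⟩
  rw [← map_mul]
  exact (ClassGroup.mk0_eq_one_iff _).2 ⟨a, ha⟩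

/-- Idl-a.  `I ↦ I 𝔟`; inverse by `Ideal.dvd_iff_le` (compare `Ku.exists_rep`) -/
theorem exists_PP {C : ClassGroup (𝓞 F)} {𝔟 : (Ideal (𝓞 F))⁰} (h : C * ClassGroup.mk0 𝔟 = 1) :
    ∃ E : {I : (Ideal (𝓞 F))⁰ // ClassGroup.mk0 I = C} ≃ PP F (𝔟 : Ideal (𝓞 F)),
      ∀ I, (E I).1 = (I.1 : Ideal (𝓞 F)) * 𝔟 := by
  let φ : {I : (Ideal (𝓞 F))⁰ // ClassGroup.mk0 I = C} → PP F (𝔟 : Ideal (𝓞 F)) := fun I =>
    ⟨(I.1 : Ideal (𝓞 F)) * 𝔟, nonZeroDivisors.coe_ne_zero (I.1 * 𝔟),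
      (ClassGroup.mk0_eq_one_iff (I.1 * 𝔟).2).1 (by
        change ClassGroup.mk0 (I.1 * 𝔟) = 1
        rw [map_mul, I.2, h]), Ideal.mul_le_right⟩
  refine ⟨Equiv.ofBijective φ ⟨fun I J hIJ => ?_, fun P => ?_⟩, fun I => rfl⟩
  · exact Subtype.ext (Subtype.ext (mul_right_cancel₀ (nonZeroDivisors.coe_ne_zero 𝔟)
      (congrArg Subtype.val hIJ)))
  · obtain ⟨P, hP0, hP1, hP2⟩ := P
    obtain ⟨I, rfl⟩ := Ideal.dvd_iff_le.2 hP2
    have hI : I ∈ (Ideal (𝓞 F))⁰ := mem_nonZeroDivisors_of_ne_zero (right_ne_zero_of_mul hP0)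
    have h0 : (𝔟 : Ideal (𝓞 F)) * I ∈ (Ideal (𝓞 F))⁰ := mem_nonZeroDivisors_of_ne_zero hP0
    have h1 : ClassGroup.mk0 (⟨_, h0⟩ : (Ideal (𝓞 F))⁰) = 1 := (ClassGroup.mk0_eq_one_iff h0).2 hP1
    have h2 : (⟨_, h0⟩ : (Ideal (𝓞 F))⁰) = ⟨I, hI⟩ * 𝔟 := Subtype.ext (mul_comm (𝔟 : Ideal (𝓞 F)) I)
    rw [h2, map_mul, ← h] at h1
    exact ⟨⟨⟨I, hI⟩, mul_right_cancel h1⟩, Subtype.ext (mul_comm I (𝔟 : Ideal (𝓞 F)))⟩

/-- Idl-b.  Injective: `gen_idl`, `Gen.uniq`, cancellation, `sm_injective`.  Surjective: `k ∈ P` associated to `gen I`;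
`idl k = comap (map I) ⊇ I`, so `I = idl k * J`; a power of `M` multiplies `idl k` into `I` (`locc_mem`, finitely
generated), so `M^m idl k ≤ idl k * J` and `M^m ∈ J`. -/
theorem exists_eqv {P : Submonoid v.R} (hP : v.Gen P) : ∃ E : P × (TS v → ℕ) ≃ (Ideal (𝓞 F))⁰,
    ∀ p, ((E p : (Ideal (𝓞 F))⁰) : Ideal (𝓞 F)) = v.idl p.1 * sm v p.2 := by
  have hs : ∀ f, Sm v (sm v f) := fun f => (sm_iff v).2 ⟨f, rfl⟩
  refine ⟨Equiv.ofBijective (fun p => ⟨v.idl p.1 * sm v p.2, mem_nonZeroDivisors_of_ne_zero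
    (mul_ne_zero (v.idl_ne_bot (hP.ne _ p.1.2)) (hs p.2).ne_bot)⟩) ⟨?_, ?_⟩, fun _ => rfl⟩
  · rintro ⟨k, f⟩ ⟨k', f'⟩ h
    replace h : v.idl k * sm v f = v.idl k' * sm v f' := congrArg Subtype.val h
    have h1 := gen_idl v (hs f) k
    rw [h] at h1
    obtain rfl : k = k' := Subtype.ext (hP.uniq _ k.2 _ k'.2 (h1.symm.trans (gen_idl v (hs f') k')))
    rw [sm_injective v (mul_left_cancel₀ (v.idl_ne_bot (hP.ne _ k.2)) h)]
  · rintro ⟨I, hI⟩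
    have h1 : Ideal.span {gen v I} = I.map (algebraMap (𝓞 F) v.R) := Ideal.span_singleton_generator _
    have h2 : gen v I ≠ 0 := fun h => by
      rw [h, Ideal.span_singleton_eq_bot.2 rfl, eq_comm,
        Ideal.map_eq_bot_iff_of_injective v.up_injective] at h1
      exact nonZeroDivisors.ne_zero hI h1
    obtain ⟨k, hk, h3⟩ := hP.ex _ h2
    rw [Ideal.span_singleton_eq_span_singleton.2 h3] at h1
    obtain ⟨J, hJ⟩ : v.idl k ∣ I := by
      rw [Ideal.dvd_iff_le, Lv.idl, h1]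
      exact Ideal.le_comap_map
    have h4 : (Ideal.span {k} : Ideal v.R) ≠ 0 := fun h => hP.ne k hk (Ideal.span_singleton_eq_bot.1 h)
    have h5 : J.map (algebraMap (𝓞 F) v.R) = 1 := by
      rw [hJ, Ideal.map_mul, Lv.map_idl] at h1
      exact mul_left_cancel₀ h4 (by rw [mul_one]; exact h1.symm)
    obtain ⟨m, hm⟩ := v.locc_mem (I := J) (a := 1) (by rw [h5, Ideal.one_eq_top]; trivial)
    obtain ⟨f, rfl⟩ := (sm_iff v).1 ⟨m, by rwa [one_mul] at hm⟩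
    exact ⟨(⟨k, hk⟩, f), Subtype.ext hJ.symm⟩

theorem idlb_nm {n : v.R} (hn : n ≠ 0) : Ab.nm n = Ideal.absNorm (v.idl n) :=
  congrArg Nat.cast (v.N_eq_card hn).symm

/-- Idl-b.  `n ↦ idl n` is injective on `P` (`idl_eq_iff`), `N_eq_card`, `Ideal.tendsto_norm_le_div_atTop`
(eventually bounded, monotone), `Ideal.finite_setOf_absNorm_le` -/
theorem count {P : Submonoid v.R} (hP : v.Gen P) : @Ab.Count v.R _ (v.dt P) := by
  obtain ⟨c, hc⟩ : ∃ c : ℝ, ∀ᶠ s : ℝ in Filter.atTop,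
      (Nat.card {I : Ideal (𝓞 F) // Ideal.absNorm I ≤ s} : ℝ) / s ≤ c :=
    ⟨_, (Ideal.tendsto_norm_le_div_atTop F).eventually_le_const (lt_add_one _)⟩
  obtain ⟨X₀, hX₀⟩ := Filter.eventually_atTop.1 hc
  refine ⟨c * max X₀ 1, fun X B hX hB => ?_⟩
  have h1 : 1 ≤ max X₀ 1 := le_max_right _ _
  have h2 : X ≤ max X₀ 1 * X := le_mul_of_one_le_left (by linarith) h1
  have h3 := hX₀ (max X₀ 1 * X) ((le_max_left _ _).trans (le_mul_of_one_le_right (by linarith) hX))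
  rw [div_le_iff₀ (by linarith), ← mul_assoc] at h3
  refine le_trans (Nat.cast_le.2 ?_) h3
  have : Finite {I : Ideal (𝓞 F) // (Ideal.absNorm I : ℝ) ≤ max X₀ 1 * X} :=
    (Ideal.finite_setOfPred_absNorm_le ⌊max X₀ 1 * X⌋₊).subset fun I hI => Nat.le_floor hI
  rw [← Nat.card_eq_finsetCard B]
  refine Nat.card_le_card_of_injective (fun n => ⟨v.idl n.1, ?_⟩) fun m n h => Subtype.ext ?_
  · rw [← idlb_nm v (hP.ne _ (hB _ n.2).1)]
    exact (hB _ n.2).2.trans h2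
  · exact hP.uniq _ (hB _ m.2).1 _ (hB _ n.2).1 (v.idl_eq_iff.1 (congrArg Subtype.val h))

/-- Idl-b.  `E s = ∏ (1 - q^(-s))`; `zeta_eq`, `LS_eq_tsum` with `c = 1`, `exists_eqv`, `summable_ideal`,
`Summable.tsum_prod`, `hasSum_qf` -/
theorem link {P : Submonoid v.R} (hP : v.Gen P) : @Ab.Link v.R _ (v.dt P) F _ _ := by
  refine ⟨fun s => ∏ i, (1 - (qS v i : ℂ) ^ (-s)), Differentiable.fun_finsetProd fun i _ =>
    (differentiable_neg.const_cpow (Or.inl ?_)).const_sub 1, fun s hs => ?_⟩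
  · have := two_le_qS v i
    exact Complex.ofReal_ne_zero.2 (by linarith)
  obtain ⟨E, hE⟩ := exists_eqv v hP
  obtain ⟨-, h1, h2⟩ := hasSum_qf (two_le_qS v) (s := s) (by linarith)
  have hS : Summable fun I : (Ideal (𝓞 F))⁰ => (Ideal.absNorm (I : Ideal (𝓞 F)) : ℂ) ^ (-s) := by
    refine Summable.of_norm_bounded (summable_ideal F hs) fun I => ?_
    have hI : 0 < Ideal.absNorm (I : Ideal (𝓞 F)) :=
      Nat.pos_of_ne_zero fun h => nonZeroDivisors.coe_ne_zero I (Ideal.absNorm_eq_zero_iff.1 h)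
    rw [Complex.norm_natCast_cpow_of_pos hI, Complex.neg_re]
  have h3 : ∀ p : P × (TS v → ℕ), (Ideal.absNorm (E p : Ideal (𝓞 F)) : ℂ) ^ (-s) =
      (Ab.nm (p.1 : v.R) : ℂ) ^ (-s) * (qf (qS v) p.2 : ℂ) ^ (-s) := fun p => by
    rw [hE, map_mul, Nat.cast_mul, Complex.natCast_mul_natCast_cpow, idlb_nm v (hP.ne _ p.1.2),
      ← absNorm_sm, Complex.ofReal_natCast, Complex.ofReal_natCast]
  have h4 := LS_eq_tsum F (c := fun _ => 1) (by simp) hs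
  simp only [mul_one, one_mul] at h4
  have h5 : Summable fun p => (Ideal.absNorm (E p : Ideal (𝓞 F)) : ℂ) ^ (-s) := E.summable_iff.2 hS
  rw [zeta_eq, h4, ← E.tsum_eq, h5.tsum_prod]
  simp only [h3, tsum_mul_left, h1.tsum_eq, tsum_mul_right]
  rw [mul_left_comm, ← Finset.prod_mul_distrib,
    Finset.prod_eq_one fun i _ => mul_inv_cancel₀ (h2 i).1, mul_one]
  rfl

/-- Idl-c.  The terms are summable over all nonzero ideals (`IsPhi.upper` with `σ = 2`, `summable_ideal`); group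
them by classes (`Equiv.sigmaFiberEquiv`, `Summable.tsum_sigma`, `tsum_fintype`) and by `exists_eqv`
(`Summable.tsum_prod`, `gen_idl`, `absNorm_sm`, `N_eq_card`, `Complex.ofReal_tsum`). -/
theorem sum_BC {P : Submonoid v.R} (hP : v.Gen P) {Ψ : v.R → ℂ} {B : ℝ} (hB : ∀ a, ‖Ψ a‖ ≤ B)
    (hU : Ab.UInv Ψ) {t : ℝ} (ht : 0 < t) :
    ∑ C : ClassGroup (𝓞 F), BC v C Ψ t = ∑' k : P, Ψ k * ((W v (Ab.nm (k : v.R) * t) : ℝ) : ℂ) := by
  have := totC v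
  obtain ⟨E, hE⟩ := exists_eqv v hP
  obtain ⟨C, hC0, hC⟩ := (isPhi F).upper (σ := 2) two_pos
  have hd : 0 < rD F := rD_pos F
  have hN : ∀ I : (Ideal (𝓞 F))⁰, (0 : ℝ) < Ideal.absNorm (I : Ideal (𝓞 F)) := fun I =>
    Nat.cast_pos.2 (Ideal.absNorm_pos_of_nonZeroDivisors I)
  obtain ⟨g, hg⟩ : ∃ g : (Ideal (𝓞 F))⁰ → ℂ, ∀ I, g I = Ψ (gen v (I : Ideal (𝓞 F))) *
      (phi F (t * Ideal.absNorm (I : Ideal (𝓞 F)) / rD F) : ℝ) := ⟨_, fun _ => rfl⟩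
  have hs : Summable g := by
    refine ((summable_ideal F one_lt_two).mul_left (B * (C * (t / rD F) ^ (-2 : ℝ)))).of_norm_bounded
      fun I => ?_
    have h0 : 0 < t * Ideal.absNorm (I : Ideal (𝓞 F)) / rD F := div_pos (mul_pos ht (hN I)) hd
    rw [hg, norm_mul, Complex.norm_real, Real.norm_of_nonneg ((isPhi F).pos _ h0).le,
      mul_assoc, mul_assoc, ← Real.mul_rpow (div_pos ht hd).le (hN I).le, div_mul_eq_mul_div]
    exact mul_le_mul (hB _) (hC _ h0) ((isPhi F).pos _ h0).le ((norm_nonneg _).trans (hB 0))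
  have hn : ∀ (k : P) (f : TS v → ℕ), (Ideal.absNorm ((E (k, f) : (Ideal (𝓞 F))⁰) : Ideal (𝓞 F)) : ℝ) =
      Ab.nm (k : v.R) * qf (qS v) f := fun k f => by
    rw [hE, map_mul, Nat.cast_mul, absNorm_sm, Ab.nm, Ab.nN, ← v.N_eq_card (hP.ne _ k.2)]
    rfl
  have e1 : ∑ C : ClassGroup (𝓞 F), BC v C Ψ t = ∑' I, g I := by
    have h1 := (Equiv.sigmaFiberEquiv fun I : (Ideal (𝓞 F))⁰ => ClassGroup.mk0 I).summable_iff.2 hs
    rw [← (Equiv.sigmaFiberEquiv fun I : (Ideal (𝓞 F))⁰ => ClassGroup.mk0 I).tsum_eq]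
    refine Eq.trans ?_ h1.tsum_sigma.symm
    rw [tsum_fintype]
    exact Finset.sum_congr rfl fun C _ => tsum_congr fun I => (hg I.1).symm
  rw [e1, ← E.tsum_eq]
  refine (E.summable_iff.2 hs).tsum_prod.trans (tsum_congr fun k => ?_)
  have h0 : 0 < Ab.nm (k : v.R) * t := by
    have := hN (E (k, 0))
    rw [hn] at this
    simpa [qf, ht] using this
  rw [W, WW, if_pos h0, Complex.ofReal_tsum, ← tsum_mul_left]
  refine tsum_congr fun f => ?_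
  obtain ⟨u, hu⟩ := gen_idl v ((sm_iff v).2 ⟨f, rfl⟩) (k : v.R)
  rw [Function.comp_apply, hg, hn, hE, ← hU u _ u.isUnit, mul_comm (u : v.R), hu, mul_left_comm t,
    mul_assoc]

end Crest.Agent.R27.Po
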