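import Crest.Agent.R27.Po.Defs

/-! Row 27, block Po (owner helper12): Poisson summation on an ideal. -/

set_option autoImplicit false

namespace Crest.Agent.R27.Po

open NumberField MeasureTheory Crest.NumberTheoryR.EisensteinField G Ku
open scoped Classical Real nonZeroDivisors

variable {K : Type} [Field K] [NumberField K]

theorem lata_mem {𝔠 : Ideal (𝓞 K)} (h : 𝔠 ≠ ⊥) (ξ : K) :
    ξ ∈ FractionalIdeal.dual ℤ ℚ (𝔠 : FractionalIdeal (𝓞 K)⁰ K) ↔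
      ∀ α ∈ 𝔠, ∃ n : ℤ, Algebra.trace ℚ K (ξ * (α : 𝓞 K)) = n := by
  rw [FractionalIdeal.mem_dual (FractionalIdeal.coeIdeal_ne_zero.2 h)]
  constructor
  · intro H α hα
    obtain ⟨n, hn⟩ := H _ ((FractionalIdeal.mem_coeIdeal _).2 ⟨α, hα, rfl⟩)
    exact ⟨n, hn.symm⟩
  · intro H a ha
    obtain ⟨α, hα, rfl⟩ := (FractionalIdeal.mem_coeIdeal _).1 ha
    obtain ⟨n, hn⟩ := H α hα
    exact ⟨n, hn.symm⟩

/-- Lat-a.  `ξ 𝔠 ⊆ 𝔡⁻¹ ↔ ξ 𝔠 𝔡 ⊆ 𝓞 ↔ ξ γ ∈ 𝔟'`: `FractionalIdeal.dual ℤ ℚ`, `FractionalIdeal.mem_dual`,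
`FractionalIdeal.dual_eq_mul_inv`, `coeIdeal_differentIdeal`; norms by `absNorm_differentIdeal`,
`Ideal.absNorm_span_singleton`, `Algebra.coe_norm_int` -/
theorem isDual_of {𝔠 𝔟' : Ideal (𝓞 K)} {γ : 𝓞 K} (hγ : γ ≠ 0)
    (h : 𝔠 * 𝔟' * differentIdeal ℤ (𝓞 K) = Ideal.span {γ}) : IsDual 𝔠 𝔟' γ ∧
      |((Algebra.norm ℚ (γ : K) : ℚ) : ℝ)| = Ideal.absNorm 𝔠 * Ideal.absNorm 𝔟' * rD K ^ 2 := by
  have h0 : 𝔠 * 𝔟' * differentIdeal ℤ (𝓞 K) ≠ ⊥ := by rwa [h, Ne, Ideal.span_singleton_eq_bot]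
  have hc : 𝔠 ≠ ⊥ := left_ne_zero_of_mul (left_ne_zero_of_mul h0)
  have hγ' : (γ : K) ≠ 0 := by exact_mod_cast hγ
  refine ⟨⟨hγ, fun ξ => ?_⟩, ?_⟩
  · have h1 := congrArg (fun I : Ideal (𝓞 K) => (I : FractionalIdeal (𝓞 K)⁰ K)) h
    simp only [FractionalIdeal.coeIdeal_mul, FractionalIdeal.coeIdeal_span_singleton,
      coeIdeal_differentIdeal ℤ ℚ K (𝓞 K)] at h1
    have hc' : (𝔠 : FractionalIdeal (𝓞 K)⁰ K) ≠ 0 := FractionalIdeal.coeIdeal_ne_zero.2 hc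
    have hd : FractionalIdeal.dual ℤ ℚ (1 : FractionalIdeal (𝓞 K)⁰ K) ≠ 0 :=
      FractionalIdeal.dual_ne_zero ℤ ℚ one_ne_zero
    have hs : FractionalIdeal.spanSingleton (𝓞 K)⁰ (algebraMap (𝓞 K) K γ) ≠ 0 :=
      FractionalIdeal.spanSingleton_ne_zero_iff.2 hγ'
    have h2 : FractionalIdeal.dual ℤ ℚ (𝔠 : FractionalIdeal (𝓞 K)⁰ K) =
        FractionalIdeal.spanSingleton (𝓞 K)⁰ (γ : K)⁻¹ * 𝔟' := by
      rw [FractionalIdeal.dual_eq_mul_inv, ← FractionalIdeal.spanSingleton_inv,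
        eq_inv_mul_iff_mul_eq₀ hs, ← h1]
      field_simp
    rw [← lata_mem hc, h2, FractionalIdeal.mem_singleton_mul]
    constructor
    · rintro ⟨y, hy, rfl⟩
      obtain ⟨β, hβ, rfl⟩ := (FractionalIdeal.mem_coeIdeal _).1 hy
      exact ⟨β, hβ, (div_eq_inv_mul _ _).symm⟩
    · rintro ⟨β, hβ, rfl⟩
      exact ⟨_, (FractionalIdeal.mem_coeIdeal _).2 ⟨β, hβ, rfl⟩, div_eq_inv_mul _ _⟩
  · have h1 := congrArg Ideal.absNorm h
    rw [map_mul, map_mul, absNorm_differentIdeal K, Ideal.absNorm_span_singleton] at h1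
    have h2 := congrArg (fun n : ℕ => (n : ℝ)) h1
    simp only [Nat.cast_mul, Nat.cast_natAbs, Int.cast_abs] at h2
    rw [← Algebra.coe_norm_int, rD, Real.sq_sqrt (abs_nonneg _), h2, Rat.cast_intCast]

/-- Lat-a.  If `M 𝔡⁻¹ ⊆ 𝓞` then `M ∈ 𝔡` -/
theorem mem_different {M : 𝓞 K}
    (h : ∀ x : K, (∀ y : 𝓞 K, ∃ n : ℤ, Algebra.trace ℚ K (x * y) = n) → ∃ a : 𝓞 K, (M : K) * x = a) :
    M ∈ differentIdeal ℤ (𝓞 K) := by
  have hd : FractionalIdeal.dual ℤ ℚ (1 : FractionalIdeal (𝓞 K)⁰ K) ≠ 0 :=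
    FractionalIdeal.dual_ne_zero ℤ ℚ one_ne_zero
  have h1 : (M : K) ∈ (differentIdeal ℤ (𝓞 K) : FractionalIdeal (𝓞 K)⁰ K) := by
    rw [coeIdeal_differentIdeal ℤ ℚ K (𝓞 K), FractionalIdeal.mem_inv_iff hd]
    intro x hx
    rw [← FractionalIdeal.coeIdeal_top, lata_mem top_ne_bot] at hx
    obtain ⟨a, ha⟩ := h x fun y => hx y Submodule.mem_top
    exact (FractionalIdeal.mem_one_iff _).2 ⟨a, ha.symm⟩
  obtain ⟨a, ha, e⟩ := (FractionalIdeal.mem_coeIdeal _).1 h1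
  rwa [← RingOfIntegers.ext e]

theorem latb_hc {ι : Type} [Fintype ι] (ψ : K →+* ℂ) (β : ι → K) (r : ι → ℚ) :
    ∑ i, hc (ψ (β i)) * (r i : ℝ) = hc (ψ (∑ i, (r i : K) * β i)) := by
  simp only [map_sum, map_mul, map_ratCast, hc, Complex.re_sum, Complex.im_sum,
    ← Finset.sum_add_distrib]
  refine Finset.sum_congr rfl fun i _ => ?_
  rw [← Complex.ofReal_ratCast, Complex.re_ofReal_mul, Complex.im_ofReal_mul]
  ring

theorem latb_tr {ι : Type} [Fintype ι] {β β' : ι → K}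
    (h : ∀ i j, Algebra.trace ℚ K (β i * β' j) = if i = j then 1 else 0) (r : ι → ℚ) (j : ι) :
    Algebra.trace ℚ K ((∑ i, (r i : K) * β i) * β' j) = r j := by
  rw [Finset.sum_mul, map_sum, Finset.sum_eq_single j]
  · rw [mul_assoc, ← Rat.smul_def, map_smul, h, if_pos rfl, smul_eq_mul, mul_one]
  · intro i _ hi
    rw [mul_assoc, ← Rat.smul_def, map_smul, h, if_neg hi, smul_zero]
  · simp

theorem latb_exp {β β' : (K →+* ℂ) → K}
    (h : ∀ i j, Algebra.trace ℚ K (β i * β' j) = if i = j then 1 else 0) (a : K) :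
    ∑ i, ((Algebra.trace ℚ K (a * β' i) : ℚ) : K) * β i = a := by
  have hli : LinearIndependent ℚ β := by
    refine Fintype.linearIndependent_iff.2 fun r hr j => ?_
    have := latb_tr h r j
    simp only [Rat.smul_def] at hr
    rw [hr, zero_mul, map_zero] at this
    exact this.symm
  obtain ⟨B, hB⟩ : ∃ B : Module.Basis (K →+* ℂ) ℚ K, ⇑B = β :=
    ⟨basisOfLinearIndependentOfCardEqFinrank hli (Embeddings.card K ℂ),
      coe_basisOfLinearIndependentOfCardEqFinrank _ _⟩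
  have e := B.sum_repr a
  simp only [Rat.smul_def, hB] at e
  conv_rhs => rw [← e]
  refine Finset.sum_congr rfl fun i _ => ?_
  rw [← latb_tr h (B.repr a) i, e]

theorem latb_det {𝔟 : Ideal (𝓞 K)} (b : Module.Basis (K →+* ℂ) ℤ 𝔟) {y : (K →+* ℂ) → ℝ}
    (hy : ∀ φ, 0 < y φ) :
    |(Matrix.of fun φ i : K →+* ℂ => y φ * hc (φ (((b i : 𝔟) : 𝓞 K) : K))).det| =
      (∏ φ, y φ) * Ideal.absNorm 𝔟 * rD K := by
  have := Matrix.det_mul_column y (Matrix.of fun φ i : K →+* ℂ => hc (φ (((b i : 𝔟) : 𝓞 K) : K)))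
  simp only [Matrix.of_apply] at this
  rw [this, abs_mul, det_hc, abs_of_pos (Finset.prod_pos fun φ _ => hy φ), mul_assoc, rD]

/-- Lat-b.  `exists_basis`, `det_hc` (nonzero determinant), `summable_gauss`, `sum_hc_sq`, `embe_lat`
with `A = diagonal (y φ * ‖φ x₀‖) * hc-matrix`; (`x₀ ≠ 0`) -/
theorem summable_Gs {𝔟 : Ideal (𝓞 K)} (h𝔟 : 𝔟 ≠ ⊥) {y : (K →+* ℂ) → ℝ} (hy : Tor y) {x₀ : K} (hx : x₀ ≠ 0) :
    Summable fun α : 𝔟 => Gs y (((α : 𝓞 K) : K) * x₀) := by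
  obtain ⟨b⟩ := exists_basis h𝔟
  have h1 : ∀ φ : K →+* ℂ, 0 < y φ * ‖φ x₀‖ := fun φ =>
    mul_pos (hy.1 φ) (norm_pos_iff.2 ((map_ne_zero φ).2 hx))
  have h2 : ∀ φ : K →+* ℂ, y (ComplexEmbedding.conjugate φ) * ‖ComplexEmbedding.conjugate φ x₀‖ =
      y φ * ‖φ x₀‖ := fun φ => by
    rw [hy.2, ComplexEmbedding.conjugate_coe_eq, Complex.norm_conj]
  have hdet := latb_det b h1
  have hne : (Matrix.of fun φ i : K →+* ℂ =>
      y φ * ‖φ x₀‖ * hc (φ (((b i : 𝔟) : 𝓞 K) : K))).det ≠ 0 := by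
    rw [← abs_pos, hdet, mul_assoc]
    exact mul_pos (Finset.prod_pos fun φ _ => h1 φ) (embe_V h𝔟)
  rw [← b.equivFun.symm.toEquiv.summable_iff]
  refine (summable_gauss hne Real.pi_pos).congr fun m => ?_
  simp only [Function.comp_apply, LinearEquiv.coe_toEquiv, Module.Basis.equivFun_symm_apply, Gs]
  rw [embe_coe]
  congr 3
  rw [Finset.sum_congr rfl fun φ _ => by
    rw [embe_lat (a := y φ * ‖φ x₀‖) (β := fun i => (((b i : 𝔟) : 𝓞 K) : K)) φ (fun _ => rfl)],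
    (sum_hc_sq (y := fun φ => y φ * ‖φ x₀‖) h2 _).1]
  refine Finset.sum_congr rfl fun φ _ => ?_
  rw [map_mul, norm_mul]
  ring

/-- Lat-b.  `b` a basis of `𝔠` (`exists_basis`), `b'` the trace dual basis (`exists_dual`); `gauss_pois` with `S = ∅`,
`A φ i = y φ * hc (φ (b i))`, `B φ j = (y φ)⁻¹ * hc (conj (φ (b' j)))` (`sum_hc_mul`), shift
`v i = Tr (a * b' i)` (so `a = ∑ v i b i`), `det_hc`, `sum_hc_sq`.  `k ↦ γ ∑ k j b' j` is a bijection onto `𝔟'`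
(`IsDual`; a `ξ` in the dual is `∑ Tr (ξ b j) b' j`). -/
theorem lat_pois {𝔠 𝔟' : Ideal (𝓞 K)} {γ : 𝓞 K} (h𝔠 : 𝔠 ≠ ⊥) (hd : IsDual 𝔠 𝔟' γ)
    {y : (K →+* ℂ) → ℝ} (hy : Tor y) (a : K) :
    ∑' α : 𝔠, ((Gs y (((α : 𝓞 K) : K) + a) : ℝ) : ℂ) =
      ((((∏ φ, y φ) * Ideal.absNorm 𝔠 * rD K)⁻¹ : ℝ) : ℂ) * ∑' β : 𝔟',
        eT (((β : 𝓞 K) : K) / γ * a) * ((Gs (fun φ => (y φ)⁻¹) (((β : 𝓞 K) : K) * (γ : K)⁻¹) : ℝ) : ℂ) := by
  obtain ⟨b⟩ := exists_basis h𝔠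
  obtain ⟨b', hb, -⟩ := exists_dual h𝔠 b
  have hb' : ∀ i j, Algebra.trace ℚ K (b' i * (((b j : 𝔠) : 𝓞 K) : K)) = if i = j then 1 else 0 :=
    fun i j => by rw [mul_comm, hb]; simp only [eq_comm]
  have hAB : (Matrix.of fun φ i : K →+* ℂ => y φ * hc (φ (((b i : 𝔠) : 𝓞 K) : K))).transpose *
      (Matrix.of fun φ j : K →+* ℂ => (y φ)⁻¹ * hc (starRingEnd ℂ (φ (b' j)))) = 1 := by
    ext i j
    rw [Matrix.mul_apply, Matrix.one_apply]
    simp only [Matrix.transpose_apply, Matrix.of_apply]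
    rw [Finset.sum_congr rfl fun φ _ => by
      rw [mul_mul_mul_comm, mul_inv_cancel₀ (hy.1 φ).ne', one_mul], sum_hc_mul, hb]
    split_ifs <;> simp
  have key := gauss_pois hAB ∅ fun i => ((Algebra.trace ℚ K (a * b' i) : ℚ) : ℝ)
  rw [latb_det b hy.1] at key
  have hex : ∀ k : (K →+* ℂ) → ℤ, ∃ β : 𝔟', ∑ i, (k i : K) * b' i = ((β : 𝓞 K) : K) / γ := by
    intro k
    obtain ⟨β, h1, h2⟩ := (hd.2 (∑ i, (k i : K) * b' i)).1 fun α hα => by
      refine ⟨∑ j, b.repr ⟨α, hα⟩ j * k j, ?_⟩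
      have e := embe_coe b (b.repr ⟨α, hα⟩)
      rw [b.sum_repr] at e
      change (α : K) = _ at e
      rw [e, Finset.mul_sum, map_sum, Int.cast_sum]
      refine Finset.sum_congr rfl fun j _ => ?_
      have := latb_tr hb' (fun i => (k i : ℚ)) j
      simp only [Rat.cast_intCast] at this
      rw [mul_left_comm, ← zsmul_eq_mul, map_zsmul, this, zsmul_eq_mul, Int.cast_mul]
    exact ⟨⟨β, h1⟩, h2⟩
  choose e he using hex
  have hbij : Function.Bijective e := by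
    constructor
    · intro k k' h
      funext j
      have h1 := latb_tr hb' (fun i => (k i : ℚ)) j
      have h2 := latb_tr hb' (fun i => (k' i : ℚ)) j
      simp only [Rat.cast_intCast] at h1 h2
      rw [he, h, ← he, h2] at h1
      exact_mod_cast h1.symm
    · intro β
      have h1 := (hd.2 (((β : 𝓞 K) : K) / γ)).2 ⟨β, β.2, rfl⟩
      choose n hn using fun j => h1 (b j : 𝔠) (b j).2
      refine ⟨n, Subtype.ext (RingOfIntegers.coe_injective ?_)⟩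
      have h2 := latb_exp hb' (((β : 𝓞 K) : K) / γ)
      simp only [hn, Rat.cast_intCast] at h2
      rw [he, div_left_inj' (RingOfIntegers.coe_ne_zero_iff.2 hd.1)] at h2
      exact h2
  rw [← b.equivFun.symm.toEquiv.tsum_eq, ← (Equiv.ofBijective e hbij).tsum_eq]
  refine Eq.trans (tsum_congr fun m => ?_) (key.trans (congrArg _ (tsum_congr fun k => ?_)))
  · simp only [LinearEquiv.coe_toEquiv, Module.Basis.equivFun_symm_apply, Gs, fS,
      Finset.prod_empty, one_mul]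
    rw [embe_coe, ← (sum_hc_sq hy.2 _).1]
    congr 5
    funext φ
    congr 1
    have e1 : ∑ i, (m i : K) * (((b i : 𝔠) : 𝓞 K) : K) + a =
        ∑ i, (((m i : ℚ) + Algebra.trace ℚ K (a * b' i) : ℚ) : K) * (((b i : 𝔠) : 𝓞 K) : K) := by
      simp only [Rat.cast_add, Rat.cast_intCast, add_mul, Finset.sum_add_distrib, latb_exp hb a]
    rw [e1, ← latb_hc, Finset.mul_sum]
    simp only [Matrix.mulVec, dotProduct, Matrix.of_apply, Pi.add_apply, Rat.cast_add,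
      Rat.cast_intCast, mul_assoc]
  · simp only [Equiv.ofBijective_apply, ← div_eq_mul_inv, ← he, Finset.card_empty, pow_zero,
      one_mul, eT, Gs, fS, Finset.prod_empty]
    congr 1
    · congr 2
      rw [Finset.sum_mul, map_sum]
      push_cast
      refine Finset.sum_congr rfl fun i _ => ?_
      rw [mul_assoc, ← zsmul_eq_mul (b' i * a), map_zsmul, zsmul_eq_mul, mul_comm a]
      push_cast
      rfl
    · rw [← (sum_hc_sq (y := fun φ => (y φ)⁻¹) (fun φ => by rw [hy.2]) _).2]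
      congr 5
      funext φ
      rw [embe_lat (a := (y φ)⁻¹) (β := b') ((starRingEnd ℂ).comp φ) (fun _ => rfl),
        RingHom.comp_apply]

end Crest.Agent.R27.Po
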